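import Vale.Agent.P281.H716.KL.Iface

/-! P281, theorem KL for good minimal models: the analytic blocks, as propositions. -/

open scoped Manifold ContDiff Topology ComplexOrder
open Set Filter Vale.Agent.P281.J Vale.Agent.P272.K Vale.Agent.P272.K.AMP Vale.Agent.P299
open Vale.Agent.P299.H882 (J xi qf)
open Vale.Agent.P272.K.INT (IsClosedForm)

noncomputable section

namespace Vale.Agent.P281.H716.KL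

open Vale.Agent.P281.H713 Vale.Agent.P281.H713.SA Vale.Agent.P281.H713.KD Vale.Agent.P281.H716
open Vale.Agent.P281.H167.GM (mixX addF phiD)

/-- **Block M1**: `log (ρ₁ + δ')` quasi-plurisubharmonic, uniformly: no mass on `{ρ₁ = 0}`. -/
def MassPart1 : Prop := ∀ (n M : ℕ) (X : Type) [TopologicalSpace X] [T2Space X] [CompactSpace X]
  [ConnectedSpace X] [ChartedSpace (Cm n) X] [IsManifold 𝓘(ℂ, Cm n) ω X]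
  (G : D.FormM n X) (_ : IsKahler G) (φ : Chart n X → Cm n → ℝ) (_ : IsCanonicalMetric φ)
  (m : ℕ) (_ : 0 < m) (ρ : X → ℝ) (_ : SmoothFn (n := n) ρ) (_ : ∀ x, 0 ≤ ρ x)
  (_ : ∃ x, 0 < ρ x) (Dv : Fin M → Set X) (r : Fin M → X → ℝ) (R : Fin M → D.FormM n X)
  (_ : IsBd Dv r R) (dl : Fin M → ℝ) (_ : ∀ i, 0 ≤ dl i ∧ dl i < 1) (C : ℝ)
  (_ : CurvKGe φ m ρ dl R C G) (ρ₁ : X → ℝ) (_ : SmoothFn (n := n) ρ₁) (_ : ∀ x, 0 ≤ ρ₁ x)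
  (_ : ∃ x, 0 < ρ₁ x) (C₁ : ℝ)
  (_ : ∀ δ' : ℝ, 0 < δ' → ∀ e x, At e x →
    (hess (fun y => Real.log (ρ₁ y + δ')) e (e x) + (C₁ : ℂ) • G e (e x)).PosSemidef)
  (κ : ℝ) (_ : 0 < κ), ∃ δ₀ : ℝ, 0 < δ₀ ∧ ∀ δ δ' ε : ℝ, 0 < δ → δ ≤ δ₀ → 0 < δ' → δ' ≤ δ₀ →
    0 < ε → ε ≤ δ₀ →
    ∀ (U : X → ℝ) (c : ℝ), SmoothFn (n := n) U → IsKahler (addH G U) →
      (∀ e x, At e x → Real.log (addH G U e (e x)).det.re = phiK φ m ρ δ dl r ε e (e x) + c) →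
      Vale.Agent.P299.H882.J (addH G U) (fun x => δ' / (ρ₁ x + δ') * trX (addH G U) G x) ≤ κ

/-- **Block KGL-CORE**.  `L - i∂∂̄ w = c (Λ₁ - Λ₀)`, `Λ₀ = clsK φ dl R`, where `Λ₀ + (1/m) i∂∂̄ log ρ`
and `Λ₁ + (1/m₁) i∂∂̄ log ρ₁` are semipositive. -/
def CorePartLG : Prop := ∀ (n M : ℕ) (X : Type) [TopologicalSpace X] [T2Space X] [CompactSpace X]
  [ConnectedSpace X] [ChartedSpace (Cm n) X] [IsManifold 𝓘(ℂ, Cm n) ω X]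
  (χ : D.FormM n X) (_ : IsKahler χ) (φ : Chart n X → Cm n → ℝ) (_ : IsCanonicalMetric φ)
  (m : ℕ) (_ : 0 < m) (ρ : X → ℝ) (_ : SmoothFn (n := n) ρ) (_ : ∀ x, 0 ≤ ρ x)
  (Dv : Fin M → Set X) (r : Fin M → X → ℝ) (R : Fin M → D.FormM n X)
  (_ : IsBd Dv r R) (dl : Fin M → ℝ) (_ : ∀ i, 0 ≤ dl i ∧ dl i < 1) (C : ℝ)
  (_ : CurvKGe φ m ρ dl R C χ)
  (Λ₁ : D.FormM n X) (_ : IsClosedForm Λ₁) (m₁ : ℕ) (_ : 0 < m₁) (ρ₁ : X → ℝ)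
  (_ : SmoothFn (n := n) ρ₁) (_ : ∀ x, 0 ≤ ρ₁ x)
  (_ : ∀ δ : ℝ, 0 < δ → ∀ e x, At e x → (Λ₁ e (e x) + (((m₁ : ℝ)⁻¹ : ℝ) : ℂ) •
    hess (fun y => Real.log (ρ₁ y + δ)) e (e x) +
    ((C * (δ / (ρ₁ x + δ)) : ℝ) : ℂ) • χ e (e x)).PosSemidef)
  (L : D.FormM n X) (_ : IsClosedForm L) (w : X → ℝ) (_ : SmoothFn (n := n) w) (c : ℝ) (_ : 0 ≤ c)
  (_ : ∀ e x, At e x → L e (e x) = hess w e (e x) +
    (c : ℂ) • (Λ₁ e (e x) - clsK φ dl R e (e x)))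
  (θ β : D.FormM n X) (_ : IsClosedForm θ) (_ : IsClosedForm β)
  (_ : ∀ e x, At e x → (θ e (e x)).PosSemidef) (_ : ∀ e x, At e x → (β e (e x)).PosSemidef)
  (ν : ℕ) (C₁ : ℝ) (_ : ∃ᶠ s : ℝ in atTop, mixX (addF β s θ) (clsK φ dl R) ≤ C₁ * s ^ ν / s ∧
    mixX (addF β s θ) Λ₁ ≤ C₁ * s ^ ν / s)
  (p μ : ℕ) (K : Fin M → ℕ) (_ : ∀ i, (K i : ℝ) ≤ μ * dl i)
  (N₀ N₁ : D.FormM n X → X → ℝ) (_ : IsDecPairL Dv r χ p μ K L N₀ N₁)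
  (u : X → ℝ) (_ : ∀ g x, IsKahler g → 0 < N₀ g x → 0 < N₁ g x →
    u x = Real.log (N₁ g x) - Real.log (N₀ g x))
  (e : Chart n X) (x : X) (_ : At e x) (_ : 0 < N₀ χ x) (_ : 0 < N₁ χ x) (_ : 0 < ρ x)
  (_ : 0 < ρ₁ x) (_ : ∀ i, 0 < r i x) (_ : (β e (e x)).PosDef) (_ : (θ e (e x)).rank = ν)
  (v : Cm n) (_ : ∀ j, ∑ i, v i * θ e (e x) i j = 0),
  ∑ i, xi u e (e x) i * v i = 0

end Vale.Agent.P281.H716.KL
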