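import Vale.Agent.P281.H716.KL.Dec
import Vale.Agent.P281.H716.KL.IfaceG
import Vale.Agent.P281.H342.KG.ME4
import Vale.Agent.P281.H776.KL.MixNN
import Vale.Agent.P281.H787.KLim

/-! P281, theorem KGL: the analysis on `X`, from block KGL-CORE. -/

open scoped Manifold ContDiff Topology ComplexOrder
open Set Filter Vale.Agent.P281.J Vale.Agent.P272.K Vale.Agent.P272.K.AMP Vale.Agent.P299
open Vale.Agent.P299.H882 (xi qf)
open Vale.Agent.P272.K.INT (IsClosedForm IsDensity)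

set_option linter.all false

noncomputable section

namespace Vale.Agent.P281.H716.KL

open Vale.Agent.P281.H713 Vale.Agent.P281.H713.SA Vale.Agent.P281.H713.KD Vale.Agent.P281.H716
open Vale.Agent.P281.H167.GM (mixX mixD addF phiD)
open Vale.Agent.P281.H787 (mixD_add mixD_smul isDensity_mixD)
open Vale.Agent.P281.H227.GMC (isClosed_addF)

section one

variable {n M : ℕ} {X : Type} [TopologicalSpace X] [ChartedSpace (Cm n) X]
  [IsManifold 𝓘(ℂ, Cm n) ω X]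
  {Dv : Fin M → Set X} {r : Fin M → X → ℝ} {R : Fin M → D.FormM n X} {χ : D.FormM n X}

theorem bd_smooth' (hR : IsBd Dv r R) (i : Fin M) : SmoothFn (n := n) (r i) := by
  intro e x he
  obtain ⟨g, ψ, hg, hψ, -, -, hev⟩ := hR.loc e x he
  have h1 : ContDiffAt ℝ ∞ (fun z => ‖g i z‖ ^ 2 * Real.exp (-ψ i z)) (e x) := by
    have hd : ContDiffAt ℝ ∞ (g i) (e x) :=
      ((hg i).contDiffAt.restrict_scalars ℝ).of_le (by exact le_top)
    exact (hd.norm_sq ℝ).mul (hψ i).neg.exp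
  refine h1.congr_of_eventuallyEq ?_
  filter_upwards [hev] with z hz
  exact (hz i).1

/-- the curvature inequality, for a bigger constant -/
theorem curv_mono (hχ : IsKahler χ) {Λ : D.FormM n X} {m : ℕ} {ρ : X → ℝ} (h0 : ∀ x, 0 ≤ ρ x)
    {C C' : ℝ} (hC : C ≤ C')
    (h : ∀ δ : ℝ, 0 < δ → ∀ e x, At e x → (Λ e (e x) + (((m : ℝ)⁻¹ : ℝ) : ℂ) •
      hess (fun y => Real.log (ρ y + δ)) e (e x) +
      ((C * (δ / (ρ x + δ)) : ℝ) : ℂ) • χ e (e x)).PosSemidef) :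
    ∀ δ : ℝ, 0 < δ → ∀ e x, At e x → (Λ e (e x) + (((m : ℝ)⁻¹ : ℝ) : ℂ) •
      hess (fun y => Real.log (ρ y + δ)) e (e x) +
      ((C' * (δ / (ρ x + δ)) : ℝ) : ℂ) • χ e (e x)).PosSemidef := by
  intro δ hδ e x he
  have h1 : (0 : ℝ) ≤ (C' - C) * (δ / (ρ x + δ)) :=
    mul_nonneg (sub_nonneg.2 hC) (div_nonneg hδ.le (add_nonneg (h0 x) hδ.le))
  have h2 : ((((C' - C) * (δ / (ρ x + δ)) : ℝ) : ℂ) • χ e (e x)).PosSemidef :=
    (hχ.posDef e x he).posSemidef.smul (by exact_mod_cast h1)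
  have h3 := (h δ hδ e x he).add h2
  have h4 : Λ e (e x) + (((m : ℝ)⁻¹ : ℝ) : ℂ) • hess (fun y => Real.log (ρ y + δ)) e (e x) +
      ((C * (δ / (ρ x + δ)) : ℝ) : ℂ) • χ e (e x) +
      (((C' - C) * (δ / (ρ x + δ)) : ℝ) : ℂ) • χ e (e x) =
      Λ e (e x) + (((m : ℝ)⁻¹ : ℝ) : ℂ) • hess (fun y => Real.log (ρ y + δ)) e (e x) +
      ((C' * (δ / (ρ x + δ)) : ℝ) : ℂ) • χ e (e x) := by
    rw [add_assoc, ← add_smul]
    congr 3
    push_cast
    ring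
  rw [h4] at h3
  exact h3

/-- the curvature inequality, for the metric `φ + (1/m) log (ρ + δ)` of `K_X` -/
theorem curvK_of {φ : Chart n X → Cm n → ℝ} (hφ : IsCanonicalMetric φ) {dl : Fin M → ℝ} {m : ℕ}
    {ρ : X → ℝ} (hρ : SmoothFn (n := n) ρ) (h0 : ∀ x, 0 ≤ ρ x) {C : ℝ}
    (h : ∀ δ : ℝ, 0 < δ → ∀ e x, At e x → (clsK φ dl R e (e x) + (((m : ℝ)⁻¹ : ℝ) : ℂ) •
      hess (fun y => Real.log (ρ y + δ)) e (e x) +
      ((C * (δ / (ρ x + δ)) : ℝ) : ℂ) • χ e (e x)).PosSemidef) : CurvKGe φ m ρ dl R C χ := by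
  intro δ hδ e x he
  have h1 := h δ hδ e x he
  have hφ2 : ContDiffAt ℝ 2 (φ e) (e x) := (hφ.smooth e x he).of_le (by norm_cast)
  have hpos : ρ (e.symm (e x)) + δ ≠ 0 := by
    have := h0 (e.symm (e x))
    positivity
  have hl2 : ContDiffAt ℝ 2 (fun z => Real.log (ρ (e.symm z) + δ)) (e x) :=
    (((hρ e x he).add contDiffAt_const).log hpos).of_le (by norm_cast)
  have h2 : cHess (phiD φ m ρ δ e) (e x) = cHess (φ e) (e x) + (((m : ℝ)⁻¹ : ℝ) : ℂ) •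
      hess (fun y => Real.log (ρ y + δ)) e (e x) := by
    show cHess (fun z => φ e z + (m : ℝ)⁻¹ * Real.log (ρ (e.symm z) + δ)) (e x) = _
    rw [C2.cHess_add hφ2 (contDiffAt_const.mul hl2), C2.cHess_const_mul _ hl2]
    rfl
  have h3 : curvK φ m ρ δ dl R e (e x) = clsK φ dl R e (e x) + (((m : ℝ)⁻¹ : ℝ) : ℂ) •
      hess (fun y => Real.log (ρ y + δ)) e (e x) := by
    unfold curvK clsK
    rw [h2]
    abel
  rw [h3]
  exact h1

theorem closed_LE (hφ : ∃ φ : Chart n X → Cm n → ℝ, IsCanonicalMetric φ)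
    (hR : ∀ i, IsClosedForm (R i)) (E : Fin M → ℕ) : IsClosedForm (LE E R) := by
  obtain ⟨φ, hφ⟩ := hφ
  have h1 := H342.KG.closed_fsum (fun i => ((E i : ℝ) : ℂ)) (INT.isClosedForm_canonical hφ) hR
    Finset.univ
  have h2 := h1.add ((INT.isClosedForm_canonical hφ).smul (-1))
  have h3 : (fun e z => (cHess (φ e) z + ∑ i, ((E i : ℝ) : ℂ) • R i e z) + (-1 : ℂ) •
      cHess (φ e) z) = LE E R := by
    funext e z
    unfold LE
    rw [neg_one_smul]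
    abel
  rw [← h3]
  exact h2

end one

section growth

variable {n M : ℕ} {X : Type} [TopologicalSpace X] [T2Space X] [CompactSpace X]
  [ChartedSpace (Cm n) X] [IsManifold 𝓘(ℂ, Cm n) ω X]

theorem mixX_comb {A B B' : D.FormM n X} (hA : IsClosedForm A) (hB : IsClosedForm B)
    (hB' : IsClosedForm B') {B'' : D.FormM n X} {a a' : ℝ}
    (h : ∀ e x, At e x → B'' e (e x) = (a : ℂ) • B e (e x) + (a' : ℂ) • B' e (e x)) :
    mixX A B'' = a * mixX A B + a' * mixX A B' := by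
  have h1 : mixX A B'' = INT.intX fun (e : Chart n X) z => a * mixD (A e z) (B e z) +
      a' * mixD (A e z) (B' e z) := by
    refine INT.intX_congr fun e x hx => ?_
    show mixD (A e (e x)) (B'' e (e x)) = _
    rw [h e x hx, mixD_add, mixD_smul, mixD_smul]
  rw [h1, INT.intX_add ((isDensity_mixD hA.form hB.form hA.smooth hB.smooth).const_mul a)
    ((isDensity_mixD hA.form hB'.form hA.smooth hB'.smooth).const_mul a'), INT.intX_const_mul,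
    INT.intX_const_mul]
  rfl

/-- the growth of both classes, from the growth of their sum -/
theorem growth_split {β θ Λ₀ Λ₁ ΛP : D.FormM n X} (hβ : IsClosedForm β) (hθ : IsClosedForm θ)
    (hΛ₀ : IsClosedForm Λ₀) (hΛ₁ : IsClosedForm Λ₁) {a b : ℝ} (ha : 0 < a) (hb : 0 < b)
    (hP : ∀ e x, At e x → ΛP e (e x) = (a : ℂ) • Λ₀ e (e x) + (b : ℂ) • Λ₁ e (e x))
    {ν : ℕ} {C₁ : ℝ} (hgr : ∀ s : ℝ, 1 ≤ s → mixX (addF β s θ) ΛP ≤ C₁ * s ^ ν / s)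
    (h0 : ∀ s : ℝ, 1 ≤ s → 0 ≤ mixX (addF β s θ) Λ₀)
    (h1 : ∀ s : ℝ, 1 ≤ s → 0 ≤ mixX (addF β s θ) Λ₁) :
    ∃ C₂ : ℝ, ∀ s : ℝ, 1 ≤ s → mixX (addF β s θ) Λ₀ ≤ C₂ * s ^ ν / s ∧
      mixX (addF β s θ) Λ₁ ≤ C₂ * s ^ ν / s := by
  refine ⟨(a⁻¹ + b⁻¹) * |C₁|, fun s hs => ?_⟩
  have hA := isClosed_addF hβ hθ s
  have h2 := mixX_comb hA hΛ₀ hΛ₁ hP
  have h3 := hgr s hs
  have h4 := h0 s hs
  have h5 := h1 s hs
  rw [h2] at h3
  have hs0 : (0 : ℝ) < s := lt_of_lt_of_le one_pos hs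
  have h6 : C₁ * s ^ ν / s ≤ |C₁| * s ^ ν / s := by
    refine div_le_div_of_nonneg_right ?_ hs0.le
    exact mul_le_mul_of_nonneg_right (le_abs_self _) (by positivity)
  have h7 : (0 : ℝ) ≤ |C₁| * s ^ ν / s := by positivity
  have h8 : a * mixX (addF β s θ) Λ₀ ≤ |C₁| * s ^ ν / s := by
    have := mul_nonneg hb.le h5
    linarith
  have h9 : b * mixX (addF β s θ) Λ₁ ≤ |C₁| * s ^ ν / s := by
    have := mul_nonneg ha.le h4
    linarith
  have h10 : mixX (addF β s θ) Λ₀ ≤ a⁻¹ * (|C₁| * s ^ ν / s) := by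
    rw [← inv_mul_cancel_left₀ ha.ne' (mixX (addF β s θ) Λ₀)]
    exact mul_le_mul_of_nonneg_left h8 (inv_nonneg.2 ha.le)
  have h11 : mixX (addF β s θ) Λ₁ ≤ b⁻¹ * (|C₁| * s ^ ν / s) := by
    rw [← inv_mul_cancel_left₀ hb.ne' (mixX (addF β s θ) Λ₁)]
    exact mul_le_mul_of_nonneg_left h9 (inv_nonneg.2 hb.le)
  have h12 : (0 : ℝ) ≤ a⁻¹ * (|C₁| * s ^ ν / s) := mul_nonneg (inv_nonneg.2 ha.le) h7
  have h13 : (0 : ℝ) ≤ b⁻¹ * (|C₁| * s ^ ν / s) := mul_nonneg (inv_nonneg.2 hb.le) h7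
  have h14 : (a⁻¹ + b⁻¹) * |C₁| * s ^ ν / s = a⁻¹ * (|C₁| * s ^ ν / s) +
      b⁻¹ * (|C₁| * s ^ ν / s) := by ring
  rw [h14]
  exact ⟨by linarith, by linarith⟩

end growth

section core

variable {n M : ℕ} {X : Type} [TopologicalSpace X] [T2Space X] [CompactSpace X]
  [ConnectedSpace X] [ChartedSpace (Cm n) X] [IsManifold 𝓘(ℂ, Cm n) ω X]

/-- **the quotients of decomposable tensors with poles of order at most `μ dl'`** -/
theorem core_shift (hcore : CorePartLG) {χ : D.FormM n X} (hχ : IsKahler χ)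
    {φ : Chart n X → Cm n → ℝ} (hφ : IsCanonicalMetric φ)
    {Dv : Fin M → Set X} {r : Fin M → X → ℝ} {R : Fin M → D.FormM n X} (hBd : IsBd Dv r R)
    {dl dl' : Fin M → ℝ} (hdl : ∀ i, 0 ≤ dl i ∧ dl i < 1) (hle : ∀ i, dl i ≤ dl' i)
    {t : ℝ} (ht : 0 < t) {m m' : ℕ} (hm : 0 < m) (hm' : 0 < m')
    {ρ ρ₁ : X → ℝ} (hρ : SmoothFn (n := n) ρ) (hρ0 : ∀ x, 0 ≤ ρ x)
    (hρ₁ : SmoothFn (n := n) ρ₁) (hρ₁0 : ∀ x, 0 ≤ ρ₁ x)
    (hnull : ∀ e ∈ atlas (Cm n) X, MeasureTheory.volume {z | z ∈ e.target ∧ ρ (e.symm z) = 0} = 0)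
    (hnull₁ : ∀ e ∈ atlas (Cm n) X,
      MeasureTheory.volume {z | z ∈ e.target ∧ ρ₁ (e.symm z) = 0} = 0)
    {C C' : ℝ}
    (hcurv : ∀ δ : ℝ, 0 < δ → ∀ e x, At e x → (clsK φ dl R e (e x) + (((m : ℝ)⁻¹ : ℝ) : ℂ) •
      hess (fun y => Real.log (ρ y + δ)) e (e x) +
      ((C * (δ / (ρ x + δ)) : ℝ) : ℂ) • χ e (e x)).PosSemidef)
    (hcurv₁ : ∀ δ : ℝ, 0 < δ → ∀ e x, At e x →
      (clsK φ (fun i => dl i + t * (dl' i - dl i)) R e (e x) + (((m' : ℝ)⁻¹ : ℝ) : ℂ) •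
      hess (fun y => Real.log (ρ₁ y + δ)) e (e x) +
      ((C' * (δ / (ρ₁ x + δ)) : ℝ) : ℂ) • χ e (e x)).PosSemidef)
    {θ β : D.FormM n X} (hθ : IsClosedForm θ) (hβ : IsClosedForm β)
    (hθ0 : ∀ e x, At e x → (θ e (e x)).PosSemidef) (hβ0 : ∀ e x, At e x → (β e (e x)).PosSemidef)
    {ν : ℕ} {C₁ : ℝ} (hgr : ∀ s : ℝ, 1 ≤ s → mixX (addF β s θ)
      (clsK φ (fun i => dl i + m' * t / (m + m') * (dl' i - dl i)) R) ≤ C₁ * s ^ ν / s)
    {p μ : ℕ} {K : Fin M → ℕ} (hK : ∀ i, (K i : ℝ) ≤ μ * dl' i)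
    {E : Fin M → ℕ} (hE : ∀ i, (E i : ℝ) = μ * (dl' i - dl i))
    {N₀ N₁ : D.FormM n X → X → ℝ} (hN : IsDecPair Dv r χ p μ K N₀ N₁)
    {u : X → ℝ} (hu : ∀ g x, IsKahler g → 0 < N₀ g x → 0 < N₁ g x →
      u x = Real.log (N₁ g x) - Real.log (N₀ g x))
    {e : Chart n X} {x : X} (he : At e x) (h0 : 0 < N₀ χ x) (h1 : 0 < N₁ χ x) (hρx : 0 < ρ x)
    (hρ₁x : 0 < ρ₁ x) (hrx : ∀ i, 0 < r i x) (hβx : (β e (e x)).PosDef)
    (hθx : (θ e (e x)).rank = ν) (v : Cm n) (hv : ∀ j, ∑ i, v i * θ e (e x) i j = 0) :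
    ∑ i, xi u e (e x) i * v i = 0 := by
  have hrs := fun i => bd_smooth' hBd i
  have hm0 : (0 : ℝ) < m := by exact_mod_cast hm
  have hm'0 : (0 : ℝ) < m' := by exact_mod_cast hm'
  set dl₁ : Fin M → ℝ := fun i => dl i + t * (dl' i - dl i) with hdl₁
  set Λ₀ : D.FormM n X := clsK φ dl R with hΛ₀d
  set Λ₁ : D.FormM n X := clsK φ dl₁ R with hΛ₁d
  have hΛ₀ : IsClosedForm Λ₀ := H342.KG.closed_cls hBd.closed hφ
  have hΛ₁ : IsClosedForm Λ₁ := H342.KG.closed_cls hBd.closed hφ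
  have hβs : ∀ s : ℝ, 1 ≤ s → ∀ e x, At e x → (addF β s θ e (e x)).PosSemidef := by
    intro s hs e x he
    exact (hβ0 e x he).add ((hθ0 e x he).smul (by exact_mod_cast (le_trans zero_le_one hs)))
  have hcls : ∀ e x, At e x → clsK φ (fun i => dl i + m' * t / (m + m') * (dl' i - dl i)) R
      e (e x) = (((m / (m + m') : ℝ)) : ℂ) • Λ₀ e (e x) + (((m' / (m + m') : ℝ)) : ℂ) •
        Λ₁ e (e x) := by
    intro e x _
    have hne : (m : ℝ) + m' ≠ 0 := by positivity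
    have hne' : (m : ℂ) + m' ≠ 0 := by exact_mod_cast hne
    simp only [hΛ₀d, hΛ₁d, clsK, smul_add, Finset.smul_sum, smul_smul]
    have h2 : cHess (φ e) (e x) = (((m / (m + m') : ℝ)) : ℂ) • cHess (φ e) (e x) +
        (((m' / (m + m') : ℝ)) : ℂ) • cHess (φ e) (e x) := by
      rw [← add_smul]
      have : (((m / (m + m') : ℝ)) : ℂ) + (((m' / (m + m') : ℝ)) : ℂ) = 1 := by
        push_cast
        field_simp
      rw [this, one_smul]
    have h3 : ∑ i, ((dl i + m' * t / (m + m') * (dl' i - dl i) : ℝ) : ℂ) • R i e (e x) =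
        ∑ i, ((((m / (m + m') : ℝ)) : ℂ) * ((dl i : ℝ) : ℂ)) • R i e (e x) +
        ∑ i, ((((m' / (m + m') : ℝ)) : ℂ) * ((dl₁ i : ℝ) : ℂ)) • R i e (e x) := by
      rw [← Finset.sum_add_distrib]
      refine Finset.sum_congr rfl fun i _ => ?_
      rw [← add_smul]
      congr 1
      simp only [hdl₁]
      push_cast
      field_simp
      ring
    rw [h3]
    nth_rewrite 1 [h2]
    abel
  obtain ⟨C₂, hC₂⟩ := growth_split hβ hθ hΛ₀ hΛ₁ (a := m / (m + m')) (b := m' / (m + m'))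
    (by positivity) (by positivity) hcls hgr
    (fun s hs => H776.KL.mix_nonneg hχ hΛ₀ m hρ hρ0 hnull C hcurv (isClosed_addF hβ hθ s) (hβs s hs))
    (fun s hs => H776.KL.mix_nonneg hχ hΛ₁ m' hρ₁ hρ₁0 hnull₁ C' hcurv₁ (isClosed_addF hβ hθ s)
      (hβs s hs))
  have hr0 : ∀ a : Fin M → ℕ, ∀ x, 0 ≤ ∏ i, r i x ^ a i := fun a x =>
    Finset.prod_nonneg fun i _ => pow_nonneg (H723.KD.r_nonneg hBd i x) _
  have hsplit : ∀ {a b : ℝ}, 0 ≤ a → 0 ≤ b → 0 < a * b → 0 < a ∧ 0 < b := by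
    intro a b ha hb hab
    refine ⟨lt_of_le_of_ne ha fun h => ?_, lt_of_le_of_ne hb fun h => ?_⟩
    · rw [← h, zero_mul] at hab; exact lt_irrefl _ hab
    · rw [← h, mul_zero] at hab; exact lt_irrefl _ hab
  have hprx : 0 < ∏ i, r i x ^ (E i - K i) := Finset.prod_pos fun i _ => pow_pos (hrx i) _
  refine hcore n M X χ hχ φ hφ m hm ρ hρ hρ0 Dv r R hBd dl hdl (max C C')
    (curvK_of hφ hρ hρ0 (curv_mono hχ hρ0 (le_max_left _ _) hcurv)) Λ₁ hΛ₁ m' hm' ρ₁ hρ₁ hρ₁0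
    (curv_mono hχ hρ₁0 (le_max_right _ _) hcurv₁) (LE E R) (closed_LE ⟨φ, hφ⟩ hBd.closed E)
    (fun _ => 0) (smoothFn_const 0) (μ / t) (by positivity) ?_ θ β hθ hβ hθ0 hβ0 ν C₂
    ((eventually_ge_atTop 1).frequently.mono fun s hs => hC₂ s hs) p μ (fun i => K i - E i) ?_ _ _
    (dec_of hχ hBd hrs hN E) u ?_ e x he (mul_pos h0 hprx) (mul_pos h1 hprx) hρx hρ₁x hrx hβx hθx
    v hv
  · intro e x he
    have h2 : hess (fun _ : X => (0 : ℝ)) e (e x) = 0 := by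
      have := H776.KL.addH_zero (n := n) (X := X) χ
      have h3 := congrFun (congrFun this e) (e x)
      simp only [addH, add_eq_left] at h3
      exact h3
    rw [h2, zero_add]
    simp only [hΛ₁d, LE, clsK, hdl₁]
    rw [add_sub_add_left_eq_sub, ← Finset.sum_sub_distrib, Finset.smul_sum]
    refine Finset.sum_congr rfl fun i _ => ?_
    rw [← sub_smul, smul_smul, hE i]
    congr 1
    have ht0 : (t : ℂ) ≠ 0 := by exact_mod_cast ht.ne'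
    push_cast
    field_simp
    ring
  · intro i
    have h2 : (K i : ℝ) ≤ μ * dl i + E i := by
      rw [hE i]
      have := hK i
      linarith
    rcases le_total (K i) (E i) with h3 | h3
    · rw [Nat.sub_eq_zero_of_le h3, Nat.cast_zero]
      exact mul_nonneg (Nat.cast_nonneg _) (hdl i).1
    · rw [Nat.cast_sub h3]
      linarith
  · intro g x hg hx0 hx1
    obtain ⟨h2, h3⟩ := hsplit (hN.nonneg g x hg).1 (hr0 _ x) hx0
    obtain ⟨h4, -⟩ := hsplit (hN.nonneg g x hg).2 (hr0 _ x) hx1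
    rw [hu g x hg h2 h4, Real.log_mul h4.ne' h3.ne', Real.log_mul h2.ne' h3.ne']
    ring

end core

end Vale.Agent.P281.H716.KL
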