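import Vale.Agent.P281.H716.KL.Asm
import Vale.Agent.P281.H413.KL.Fib
import Vale.Agent.P281.H156.KL.Core
import Vale.Agent.P281.H498.KL.Bridge
import Vale.Agent.P281.H283.KL.Mass1
import Vale.Agent.P281.H283.KD.Mk
import Vale.Agent.P281.H723.KL.BL
import Vale.Agent.P281.H342.KG.F2
import Vale.Agent.P281.H342.KG.ME5
import Vale.Agent.P281.H368.KG.G3
import Vale.Agent.P281.H368.KG.Null
import Vale.Agent.P281.H413.KD.FC
import Vale.Agent.P281.H708.KD.C0
import Vale.Agent.P281.H970.KD.Int
import Vale.Agent.P281.H575.KD.Log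
import Vale.Agent.P281.H455.KD.BDMain

/-! P281, theorem KGL. -/

namespace Vale.Agent.P281.H716.KL

open Vale.Agent.P281

theorem corePartLG : CorePartLG :=
  H156.KL.corePartLG H227.GMC.cohPart H227.GMC.epsPart H455.KD.bdPart H970.KD.intPart
    (H283.KD.massPartK H708.c0Part H970.KD.intPart H575.KD.logPart H455.KD.bdPart)
    (H283.KD.massPart1 H708.c0Part H970.KD.intPart H455.KD.bdPart)
    (H723.KL.BL.bochPartL H455.KD.bdPart)

theorem fibPartGL : FibPartGL :=
  H413.KL.fibPartGL_of H342.KG.formPartG H368.KG.growthPartG H342.KG.metPartG H368.KG.nullPart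
    H413.FC.corePartF

/-- **Theorem KGL.** -/
theorem mainPartGL : MainPartGL :=
  mainPartGL_of H342.KG.formPartG H368.KG.growthPartG H342.KG.metPartG H368.KG.nullPart corePartLG
    H498.bridgeL fibPartGL

end Vale.Agent.P281.H716.KL
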