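import Vale.Agent.P281.H716.KL.FS

/-! P281, theorem KGL: the product of the two systems of sections. -/

open scoped Manifold ContDiff Topology ComplexOrder
open Set Filter Vale.Agent.P281 Vale.Agent.P272.K Vale.Agent.P299.D
open Vale.Agent.P281.H716.IsSys Vale.Agent.P281.MF

set_option linter.all false

noncomputable section

namespace Vale.Agent.P281.H716.KL

open Vale.Agent.P281.H167

variable {n : ℕ} {X : Type} [TopologicalSpace X] [ChartedSpace (Cm n) X]
  [IsManifold 𝓘(ℂ, Cm n) ω X]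

theorem goodFixP_of {m m' ν : ℕ} {k k' : Set X → ℕ} {N N' : ℕ} {S : Fin N → X → ℂ}
    {S' : Fin N' → X → ℂ} {β : Chart n X → Cm n → Matrix (Fin n) (Fin n) ℂ}
    (h : IsGoodFix2 m m' ν k k' S S' β) :
    IsGoodFixP n n (m + m') ν (k + k') id (prodF S S') β := by
  intro x
  obtain ⟨T, e, r, g, a, a', H, H', hT, he, hg, hH, hH', ⟨b, hb⟩, ⟨b', hb'⟩, hev⟩ := h x
  refine ⟨T, e, r, g, fun i => a i + a' i, prodF H H', fun D hD => hT D ?_, he, hg, fun c =>
    HolV.mul (hH _) (hH' _), ⟨finProdFinEquiv (b, b'), ?_⟩, ?_⟩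
  · rw [Pi.add_apply] at hD
    by_contra hcon
    rw [not_or, not_not, not_not] at hcon
    exact hD (by rw [hcon.1, hcon.2])
  · simp only [prodF, Equiv.symm_apply_apply]
    exact mul_ne_zero hb hb'
  · filter_upwards [hev] with z hz
    refine ⟨fun hne c => ?_, hz.2.2⟩
    simp only [id] at hne ⊢
    have e1 : ∏ D ∈ T, e D z ^ (k + k') D = (∏ D ∈ T, e D z ^ k D) * ∏ D ∈ T, e D z ^ k' D := by
      rw [← Finset.prod_mul_distrib]
      exact Finset.prod_congr rfl fun D _ => by rw [Pi.add_apply, pow_add]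
    rw [e1] at hne ⊢
    have h1 := hz.1 (left_ne_zero_of_mul hne) (finProdFinEquiv.symm c).1
    have h2 := hz.2.1 (right_ne_zero_of_mul hne) (finProdFinEquiv.symm c).2
    have e2 : ∏ i, g i z ^ (a i + a' i) = (∏ i, g i z ^ a i) * ∏ i, g i z ^ a' i := by
      rw [← Finset.prod_mul_distrib]
      exact Finset.prod_congr rfl fun i _ => by rw [pow_add]
    rw [e2, pow_add]
    simp only [prodF]
    calc _ = (S (finProdFinEquiv.symm c).1 z * ∏ D ∈ T, e D z ^ k D) *
        (S' (finProdFinEquiv.symm c).2 z * ∏ D ∈ T, e D z ^ k' D) := by ring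
      _ = _ := by rw [h1, h2]; ring

/-- the slope `s` with `ΔP = Δ₀ + s (Δ - Δ₀)` -/
theorem exists_AB {κ : Type} {Δ Δ₀ : κ → ℝ} {t : ℝ} (ht : 0 < t) (ht1 : t ≤ 1)
    (hΔ : ∀ D, ∃ q : ℚ, Δ D = q) (hΔ₀ : ∀ D, ∃ q : ℚ, Δ₀ D = q)
    {m m' : ℕ} (hm : 0 < m) (hm' : 0 < m') {k' : κ → ℕ}
    (hk' : ∀ D, (k' D : ℝ) = m' * (Δ₀ D + t * (Δ D - Δ₀ D))) :
    ∃ A B : ℕ, 0 < A ∧ A ≤ B ∧ ∀ D, (B : ℝ) * ((m' * t / (m + m') : ℝ) * (Δ D - Δ₀ D)) =
      A * (Δ D - Δ₀ D) := by
  by_cases hall : ∀ D, Δ D = Δ₀ D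
  · exact ⟨1, 1, one_pos, le_rfl, fun D => by rw [hall D]; simp⟩
  · push_neg at hall
    obtain ⟨D, hD⟩ := hall
    obtain ⟨q, hq⟩ := hΔ D
    obtain ⟨q₀, hq₀⟩ := hΔ₀ D
    have hne : (q : ℝ) - q₀ ≠ 0 := by rw [← hq, ← hq₀]; exact sub_ne_zero.2 hD
    have hm'0 : (0 : ℝ) < m' := by exact_mod_cast hm'
    have hm0 : (0 : ℝ) < m := by exact_mod_cast hm
    -- `t` is rational
    obtain ⟨τ, hτ⟩ : ∃ τ : ℚ, t = τ := by
      refine ⟨((k' D : ℚ) / m' - q₀) / (q - q₀), ?_⟩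
      have h1 := hk' D
      rw [hq, hq₀] at h1
      push_cast
      rw [eq_div_iff hne]
      field_simp
      linarith
    set s : ℚ := m' * τ / (m + m') with hs
    have hs' : ((s : ℚ) : ℝ) = m' * t / (m + m') := by rw [hs, hτ]; push_cast; rfl
    have hs0 : 0 < s := by
      have : (0 : ℝ) < ((s : ℚ) : ℝ) := by rw [hs']; positivity
      exact_mod_cast this
    have hs1 : s ≤ 1 := by
      have : ((s : ℚ) : ℝ) ≤ 1 := by
        rw [hs', div_le_one (by positivity)]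
        nlinarith
      exact_mod_cast this
    refine ⟨s.num.toNat, s.den, ?_, ?_, fun D' => ?_⟩
    · have := Rat.num_pos.2 hs0
      omega
    · have h1 := Rat.num_pos.2 hs0
      have h2 : s.num ≤ s.den := by
        have := Rat.num_div_den s
        have h3 : (0 : ℚ) < s.den := by exact_mod_cast s.den_pos
        have h4 : (s.num : ℚ) ≤ s.den := by
          rw [← this, div_le_one h3] at hs1
          exact hs1
        exact_mod_cast h4
      omega
    · rw [← hs']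
      have h1 : (s.den : ℝ) * ((s : ℚ) : ℝ) = (s.num.toNat : ℝ) := by
        have h2 : ((s.num.toNat : ℤ) : ℝ) = (s.num : ℝ) := by
          rw [Int.toNat_of_nonneg (Rat.num_pos.2 hs0).le]
        have h3 : (s.den : ℚ) * s = s.num := by
          rw [mul_comm]; exact Rat.mul_den_eq_num s
        have h4 : ((s.den : ℚ) : ℝ) * ((s : ℚ) : ℝ) = ((s.num : ℚ) : ℝ) := by
          rw [← Rat.cast_mul, h3]
        push_cast at h4 h2
        rw [h4, ← h2]
      rw [← mul_assoc, h1]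

end Vale.Agent.P281.H716.KL
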