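import Vale.Agent.P281.H716.KL.Defs
import Vale.Agent.P281.H716.KL.Prod

/-! P281, theorem KGL: the fibre side, as a proposition. -/

open scoped Manifold ContDiff Topology ComplexOrder
open Set Filter Vale.Agent.P281 Vale.Agent.P272.K Vale.Agent.P281.H167 Vale.Agent.P281.H713

noncomputable section

namespace Vale.Agent.P281.H716.KL

open Vale.Agent.P281.J Vale.Agent.P281.H716 Vale.Agent.P281.H716.IsSys

/-- **Block KGL-F**: the quotients of sections on the fibre (`FlatSec` for `Δ_P`, from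
`exists_flatSecG` and `flatSec_mul`, then `flatSec_trans` with `exists_AB`). -/
def FibPartGL : Prop := ∀ (n p d : ℕ) (_ : n = p + d) (X Z Y F : Type)
  [TopologicalSpace X] [T2Space X] [CompactSpace X] [ConnectedSpace X]
  [ChartedSpace (Cm n) X] [IsManifold 𝓘(ℂ, Cm n) ω X]
  [TopologicalSpace Z] [ChartedSpace (Cm n) Z] [IsManifold 𝓘(ℂ, Cm n) ω Z]
  [TopologicalSpace Y] [T2Space Y] [ConnectedSpace Y]
  [ChartedSpace (Cm p) Y] [IsManifold 𝓘(ℂ, Cm p) ω Y]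
  [TopologicalSpace F] [T2Space F] [CompactSpace F] [ConnectedSpace F]
  [ChartedSpace (Cm d) F] [IsManifold 𝓘(ℂ, Cm d) ω F]
  (χ : Chart n X → Cm n → Matrix (Fin n) (Fin n) ℂ) (_ : IsKahler χ)
  (Δ Δ₀ : Set X → ℝ) (_ : J.IsSNC (Cm n) Δ) (_ : ∀ D, ∃ q : ℚ, Δ₀ D = q ∧ 0 ≤ q ∧ q < 1)
  (_ : ∀ D, Δ₀ D ≤ Δ D) (t : ℝ) (_ : 0 < t) (_ : t ≤ 1)
  (m N : ℕ) (_ : 0 < m) (k : Set X → ℕ) (_ : ∀ D, (k D : ℝ) = m * Δ₀ D) (S : Fin N → X → ℂ)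
  (_ : ∀ b, J.IsSection (Cm n) (fun (D : Set X) z g => J.IsLocalEq (Cm n) D g z) m k (S b))
  (m' N' : ℕ) (_ : 0 < m') (k' : Set X → ℕ)
  (_ : ∀ D, (k' D : ℝ) = m' * (Δ₀ D + t * (Δ D - Δ₀ D))) (S' : Fin N' → X → ℂ)
  (_ : ∀ b, J.IsSection (Cm n) (fun (D : Set X) z g => J.IsLocalEq (Cm n) D g z) m' k' (S' b))
  (j : Z → X) (_ : J.IsBigOpen (Cm n) j) (f : Z → Y) (_ : ContMDiff 𝓘(ℂ, Cm n) 𝓘(ℂ, Cm p) ω f)
  (i : F → Z) (_ : IsSmoothFibre (Cm n) (Cm p) (Cm d) f i)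
  (_ : ∀ D, Δ D ≠ 0 → ∃ t, j (i t) ∉ D)
  (νF : ℕ) (_ : HasRankP d νF (k + k') (fun t => j (i t)) (prodF S S'))
  (βF : Chart d F → Cm d → Matrix (Fin d) (Fin d) ℂ) (_ : IsSemiKahler βF)
  (_ : IsGoodFixP n d (m + m') νF (k + k') (fun t => j (i t)) (prodF S S') βF),
  ∃ RF : Set F, Dense RF ∧ (∀ x ∈ RF, ∃ a, prodF S S' a (j (i x)) ≠ 0) ∧
    FlatSec d (eqF n (fun t => j (i t))) Δ (fun a t => prodF S S' a (j (i t))) RF

end Vale.Agent.P281.H716.KL
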