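import Vale.Agent.P281.H716.KL.X1
import Vale.Agent.P281.H716.KL.Bridge
import Vale.Agent.P281.H716.KL.Prod
import Vale.Agent.P281.H167.KG.Data
import Vale.Agent.P281.H167.KG.Fib

/-! P281, theorem KGL: the quotients of sections on `Y`. -/

open scoped Manifold ContDiff Topology ComplexOrder
open Set Filter Vale.Agent.P281 Vale.Agent.P272.K Vale.Agent.P299
open Vale.Agent.P272.K.INT (IsClosedForm)
open Vale.Agent.P272.K.AMP (hess)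
open Vale.Agent.P299.H882 (xi)

set_option linter.all false

noncomputable section

namespace Vale.Agent.P281.H716.KL

open Vale.Agent.P281.MF Vale.Agent.P281.ISO
open Vale.Agent.P281.H713 Vale.Agent.P281.H713.SA Vale.Agent.P281.H713.KD Vale.Agent.P281.H716
open Vale.Agent.P281.H716.IsSys
open Vale.Agent.P281.H167.KG (SysLoc SysDat LocAt FormPartG GrowthPartG MetPartG exists_sysDat
  sysLoc_id)

/-- **Block KG-N**: the zero set of `ρ` has measure zero. -/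
def NullPart' : Prop := ∀ (n : ℕ) (X : Type) [TopologicalSpace X] [T2Space X] [CompactSpace X]
  [ConnectedSpace X] [ChartedSpace (Cm n) X] [IsManifold 𝓘(ℂ, Cm n) ω X] (m : ℕ)
  (Λ : D.FormM n X) (ρ : X → ℝ)
  (_ : ∀ x, ∃ (r N : ℕ) (g : Fin r → X → ℂ) (a : Fin r → ℕ) (H : Fin N → X → ℂ),
    LocAt m Λ ρ x g a H),
  ∀ e ∈ atlas (Cm n) X, MeasureTheory.volume {z | z ∈ e.target ∧ ρ (e.symm z) = 0} = 0

section

variable {n M : ℕ} {X : Type} [TopologicalSpace X] [ChartedSpace (Cm n) X]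
  [IsManifold 𝓘(ℂ, Cm n) ω X]

/-- `r i` is positive off `Dv i` -/
theorem bd_pos' {Dv : Fin M → Set X} {r : Fin M → X → ℝ} {R : Fin M → D.FormM n X}
    (hB : IsBd Dv r R) {i : Fin M} {x : X} (hx : x ∉ Dv i) : 0 < r i x := by
  have he : At (chartAt (Cm n) x) x := ⟨chart_mem_atlas _ _, mem_chart_source _ _⟩
  obtain ⟨g, ψ, -, -, h3, -, h5⟩ := hB.loc _ x he
  have h6 := (h5.self_of_nhds i).1
  rw [he.left_inv] at h6
  rw [h6]
  have h7 : g i (chartAt (Cm n) x x) ≠ 0 := fun h0 => hx ((H342.KD.mem_iff (h3 i)).2 h0)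
  exact mul_pos (pow_pos (norm_pos_iff.2 h7) 2) (Real.exp_pos _)

theorem exists_enum' {κ : Type} (T : Finset κ) : ∃ (M : ℕ) (Dv : Fin M → κ),
    Function.Injective Dv ∧ ∀ D, D ∈ T ↔ ∃ i, Dv i = D := by
  classical
  refine ⟨T.card, fun i => (T.equivFin.symm i : κ),
    fun i j hij => T.equivFin.symm.injective (Subtype.ext hij), fun D => ⟨fun hD => ?_, ?_⟩⟩
  · refine ⟨T.equivFin ⟨D, hD⟩, ?_⟩
    show ((T.equivFin.symm (T.equivFin ⟨D, hD⟩) : T) : κ) = D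
    rw [Equiv.symm_apply_apply]
  · rintro ⟨i, rfl⟩
    exact (T.equivFin.symm i).2

end

theorem constY_GL (hform : FormPartG) (hgr : GrowthPartG) (hmet : MetPartG) (hnull : NullPart')
    (hcore : CorePartLG) (hbr : BridgeL) {n p : ℕ} {X Z Y : Type}
    [TopologicalSpace X] [T2Space X] [CompactSpace X] [ConnectedSpace X]
    [ChartedSpace (Cm n) X] [IsManifold 𝓘(ℂ, Cm n) ω X]
    [TopologicalSpace Z] [ChartedSpace (Cm n) Z] [IsManifold 𝓘(ℂ, Cm n) ω Z]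
    [TopologicalSpace Y] [T2Space Y] [ConnectedSpace Y]
    [ChartedSpace (Cm p) Y] [IsManifold 𝓘(ℂ, Cm p) ω Y]
    {χ : D.FormM n X} (hχ : IsKahler χ)
    {Δ Δ₀ : Set X → ℝ} (hΔ : J.IsSNC (Cm n) Δ) (hΔ₀ : ∀ D, ∃ q : ℚ, Δ₀ D = q ∧ 0 ≤ q ∧ q < 1)
    (hle : ∀ D, Δ₀ D ≤ Δ D) {t : ℝ} (ht : 0 < t) (ht1 : t ≤ 1)
    {m N : ℕ} (hm : 0 < m) {k : Set X → ℕ} (hk : ∀ D, (k D : ℝ) = m * Δ₀ D) {S : Fin N → X → ℂ}
    (hS : ∀ b, J.IsSection (Cm n) (eqL n) m k (S b))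
    {m' N' : ℕ} (hm' : 0 < m') {k' : Set X → ℕ}
    (hk' : ∀ D, (k' D : ℝ) = m' * (Δ₀ D + t * (Δ D - Δ₀ D))) {S' : Fin N' → X → ℂ}
    (hS' : ∀ b, J.IsSection (Cm n) (eqL n) m' k' (S' b))
    {j : Z → X} (hj : J.IsBigOpen (Cm n) j) {f : Z → Y}
    (hf : ContMDiff 𝓘(ℂ, Cm n) 𝓘(ℂ, Cm p) ω f) {𝒢 : Set (Set Y)}
    (h𝒢 : J.IsDivisorial (Cm n) (Cm p) f 𝒢) {Δ' : Set Z → ℝ} (hΔ' : J.IsSNC (Cm n) Δ')
    (hres : J.IsRestriction j Δ Δ')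
    {ν : ℕ} (hν : H167.HasRankP n ν (k + k') id (prodF S S'))
    {β : D.FormM n X} (hβ : H167.IsSemiKahler β) (hgood : IsGoodFix2 m m' ν k k' S S' β) :
    ∃ R : Set X, IsOpen R ∧ Dense R ∧ ConstY n p j f 𝒢 Δ Δ' (prodF S S') R := by
  classical
  set T : Finset (Set X) := hΔ.1.toFinset with hTdef
  have hTΔ : ∀ D, D ∈ T ↔ Δ D ≠ 0 := fun D => Set.Finite.mem_toFinset _
  have hTex : ∀ D ∈ T, ∀ x, ∃ g, J.IsLocalEq (Cm n) D g x := fun D hD =>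
    (hΔ.2.1 D ((hTΔ D).1 hD)).2.1
  have hsX : IsSys n (eqL n) T := isSys_eqL hTex
  have hΔ₀0 : ∀ D, 0 ≤ Δ₀ D ∧ Δ₀ D < 1 := by
    intro D
    obtain ⟨q, hq, hq0, hq1⟩ := hΔ₀ D
    rw [hq]
    exact ⟨by exact_mod_cast hq0, by exact_mod_cast hq1⟩
  have hΔ0 : ∀ D, 0 ≤ Δ D := fun D => (hΔ₀0 D).1.trans (hle D)
  have hm0 : (0 : ℝ) < m := by exact_mod_cast hm
  have hm'0 : (0 : ℝ) < m' := by exact_mod_cast hm'
  set Δ₁ : Set X → ℝ := fun D => Δ₀ D + t * (Δ D - Δ₀ D) with hΔ₁d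
  set ΔP : Set X → ℝ := fun D => Δ₀ D + m' * t / (m + m') * (Δ D - Δ₀ D) with hΔPd
  have hkP : ∀ D, (((k + k') D : ℕ) : ℝ) = ((m + m' : ℕ) : ℝ) * ΔP D := by
    intro D
    have hne : (m : ℝ) + m' ≠ 0 := by positivity
    simp only [hΔPd, Pi.add_apply]
    push_cast
    rw [hk D, hk' D]
    field_simp
    ring
  have hzero : ∀ D, Δ D = 0 → Δ₀ D = 0 := fun D hD =>
    le_antisymm (hD ▸ hle D) (hΔ₀0 D).1
  have hksupp : ∀ D, k D ≠ 0 → D ∈ T := by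
    intro D hD
    refine (hTΔ D).2 fun h0 => hD ?_
    have h1 := hk D
    rw [hzero D h0, mul_zero] at h1
    exact_mod_cast h1
  have hk'supp : ∀ D, k' D ≠ 0 → D ∈ T := by
    intro D hD
    refine (hTΔ D).2 fun h0 => hD ?_
    have h1 := hk' D
    rw [hzero D h0, h0, sub_self, mul_zero, add_zero, mul_zero] at h1
    exact_mod_cast h1
  have hkPsupp : ∀ D, (k + k') D ≠ 0 → D ∈ T := by
    intro D hD
    by_contra hcon
    have h1 : k D = 0 := by by_contra h2; exact hcon (hksupp D h2)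
    have h2 : k' D = 0 := by by_contra h2; exact hcon (hk'supp D h2)
    exact hD (by rw [Pi.add_apply, h1, h2])
  have hTk : ∀ D ∈ T, (k + k') D ≠ 0 := by
    intro D hD h0
    rw [Pi.add_apply, Nat.add_eq_zero_iff] at h0
    have h1 := hk' D
    rw [h0.2, Nat.cast_zero] at h1
    have h2 : 0 < Δ D := lt_of_le_of_ne (hΔ0 D) (Ne.symm ((hTΔ D).1 hD))
    have h3 : Δ₀ D = 0 := by
      have := hk D
      rw [h0.1, Nat.cast_zero] at this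
      rcases mul_eq_zero.1 this.symm with h4 | h4
      · exact absurd h4 hm0.ne'
      · exact h4
    rw [h3, sub_zero, zero_add] at h1
    have : 0 < m' * (t * Δ D) := by positivity
    linarith
  -- the divisors and the metrics
  obtain ⟨M, Dv, hinj, hDvT⟩ := exists_enum' T
  have hDv : ∀ i, Dv i ∈ T := fun i => (hDvT _).2 ⟨i, rfl⟩
  choose ψ hψ hψle using fun i => H342.KD.exists_wt_le hsX (hDv i)
  have hφ := AMP.Main.isCanonical_logdet hχ.toIsHermitian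
  set φ : Chart n X → Cm n → ℝ := fun e z => Real.log (χ e z).det.re with hφd
  set r : Fin M → X → ℝ := fun i => H342.KD.rr hsX (Dv i) (ψ i) with hrd
  set R : Fin M → D.FormM n X := fun i => Vale.Agent.P285.TM.cv (H342.KD.OD hsX (Dv i) (hDv i))
    (ψ i) with hRd
  have hBd : IsBd Dv r R := by
    refine H342.KD.isBd hsX hinj hDv hψ hψle ?_
    intro x g hg c
    obtain ⟨ξ, hξ⟩ := hΔ.2.2.2 x g (fun D hD hx => hg D ((hTΔ D).2 hD) hx)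
      (fun D => c ⟨D.1, (hTΔ D.1).2 D.2.1, D.2.2⟩)
    exact ⟨ξ, funext fun D => congrFun hξ ⟨D.1, (hTΔ D.1).1 D.2.1, D.2.2⟩⟩
  -- the three systems
  have hex₀ : ∀ x, ∃ (r : ℕ) (g : Fin r → X → ℂ) (a : Fin r → ℕ) (H : Fin N → X → ℂ),
      SysLoc (n := n) (eqL n) m k S x g a H := by
    intro x
    obtain ⟨T', e, r, g, a, a', H, H', hT', he, hg, hH, hH', hne, hne', hev⟩ := hgood x
    exact ⟨r, g, a, H, hg, hH, hne, T', e, fun D hD => hT' D (Or.inl hD), he,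
      hev.mono fun z hz => hz.1⟩
  have hex₁ : ∀ x, ∃ (r : ℕ) (g : Fin r → X → ℂ) (a : Fin r → ℕ) (H : Fin N' → X → ℂ),
      SysLoc (n := n) (eqL n) m' k' S' x g a H := by
    intro x
    obtain ⟨T', e, r, g, a, a', H, H', hT', he, hg, hH, hH', hne, hne', hev⟩ := hgood x
    exact ⟨r, g, a', H', hg, hH', hne', T', e, fun D hD => hT' D (Or.inr hD), he,
      hev.mono fun z hz => hz.2.1⟩
  have hgoodP := sysLoc_id (goodFixP_of hgood)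
  have hexP : ∀ x, ∃ (r : ℕ) (g : Fin r → X → ℂ) (a : Fin r → ℕ) (H : Fin (N * N') → X → ℂ),
      SysLoc (n := n) (eqL n) (m + m') (k + k') (prodF S S') x g a H := fun x => by
    obtain ⟨r, g, a, H, h1, -⟩ := hgoodP x
    exact ⟨r, g, a, H, h1⟩
  have hPs : ∀ b, J.IsSection (Cm n) (eqL n) (m + m') (k + k') (prodF S S' b) := fun b =>
    hsX.mul hksupp hk'supp (hS _) (hS' _)
  obtain ⟨hΛ₀, ⟨ρ₀, hρ₀⟩, -⟩ := hmet n X (Set X) (eqL n) T hsX φ hφ Δ₀ m N hm k hksupp hk M Dv hinj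
    hDvT hDv ψ hψ S hS hex₀
  obtain ⟨hΛ₁, ⟨ρ₁, hρ₁⟩, -⟩ := hmet n X (Set X) (eqL n) T hsX φ hφ Δ₁ m' N' hm' k' hk'supp hk' M Dv
    hinj hDvT hDv ψ hψ S' hS' hex₁
  obtain ⟨hΛP, ⟨ρP, hρP⟩, -⟩ := hmet n X (Set X) (eqL n) T hsX φ hφ ΔP (m + m') (N * N')
    (Nat.add_pos_left hm m') (k + k') hkPsupp hkP M Dv hinj hDvT hDv ψ hψ (prodF S S') hPs hexP
  have hl₀ : ∀ x, ∃ (r N : ℕ) (g : Fin r → X → ℂ) (a : Fin r → ℕ) (H : Fin N → X → ℂ),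
      LocAt m (clsK φ (fun i => Δ₀ (Dv i)) R) ρ₀ x g a H := fun x => by
    obtain ⟨r, g, a, H, h1⟩ := hex₀ x
    obtain ⟨u, -, -, h2⟩ := hρ₀ x r g a H h1
    exact ⟨r, N, g, a, _, h2⟩
  have hl₁ : ∀ x, ∃ (r N : ℕ) (g : Fin r → X → ℂ) (a : Fin r → ℕ) (H : Fin N → X → ℂ),
      LocAt m' (clsK φ (fun i => Δ₁ (Dv i)) R) ρ₁ x g a H := fun x => by
    obtain ⟨r, g, a, H, h1⟩ := hex₁ x
    obtain ⟨u, -, -, h2⟩ := hρ₁ x r g a H h1
    exact ⟨r, N', g, a, _, h2⟩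
  obtain ⟨C, -, -, hρ₀s, hρ₀0, hρ₀d, -, -, hcurv₀, -⟩ := hform n X χ hχ m hm _ hΛ₀ ρ₀ hl₀
  obtain ⟨C', -, -, hρ₁s, hρ₁0, hρ₁d, -, -, hcurv₁, -⟩ := hform n X χ hχ m' hm' _ hΛ₁ ρ₁ hl₁
  obtain ⟨CP, θ, ν', C₁, RP, hD⟩ := exists_sysDat hform hgr hχ hsX (Nat.add_pos_left hm m') hkPsupp
    hPs hΛP hρP hβ hgoodP (by
      obtain ⟨x, b₀, c, hx, h0, hc⟩ := hν
      exact ⟨x, b₀, c, (off_eqL hTex).2 fun D hD => hx D (hTk D hD), h0, hc⟩)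
  have ho₀ : IsOpen {x | 0 < ρ₀ x} := isOpen_lt continuous_const (INT.SmoothFn.continuous hρ₀s)
  have ho₁ : IsOpen {x | 0 < ρ₁ x} := isOpen_lt continuous_const (INT.SmoothFn.continuous hρ₁s)
  refine ⟨RP ∩ {x | 0 < ρ₀ x} ∩ {x | 0 < ρ₁ x}, (hD.op.inter ho₀).inter ho₁,
    (hD.de.inter_of_isOpen_left hρ₀d hD.op).inter_of_isOpen_left hρ₁d (hD.op.inter ho₀), ?_⟩
  obtain ⟨l, hl, K₁, hK₁, -⟩ := exists_denominator (JB.snc hΔ)
  refine hbr n p M X Z Y χ hχ j hj f hf 𝒢 h𝒢 Δ hΔ Δ' hΔ' hres Dv hinj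
    (fun D => (hTΔ D).symm.trans (hDvT D)) r R hBd (l * m) (Nat.mul_pos hl hm) (N * N')
    (prodF S S') _ ?_
  intro p' μ K N₀ N₁ u hμ hK hdec hu x hx h0 h1 e he a₀ ha₀ v hv
  obtain ⟨⟨hxP, hx0⟩, hx1⟩ := hx
  obtain ⟨hxo, -, -, hg⟩ := hD.good x hxP
  obtain ⟨c, rfl⟩ := hμ
  have hE : ∀ i, ((c * (m * K₁ (Dv i) - l * k (Dv i)) : ℕ) : ℝ) =
      ((l * m * c : ℕ) : ℝ) * (Δ (Dv i) - Δ₀ (Dv i)) := by
    intro i
    have h2 : l * k (Dv i) ≤ m * K₁ (Dv i) := by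
      have h3 : ((l * k (Dv i) : ℕ) : ℝ) ≤ ((m * K₁ (Dv i) : ℕ) : ℝ) := by
        push_cast
        rw [hk, hK₁]
        have h4 := mul_le_mul_of_nonneg_left (hle (Dv i)) (by positivity : (0 : ℝ) ≤ l * m)
        calc (l : ℝ) * (m * Δ₀ (Dv i)) = l * m * Δ₀ (Dv i) := by ring
          _ ≤ l * m * Δ (Dv i) := h4
          _ = m * (l * Δ (Dv i)) := by ring
      exact_mod_cast h3
    push_cast [Nat.cast_sub h2]
    rw [hk, hK₁]
    ring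
  refine core_shift hcore hχ hφ hBd (dl := fun i => Δ₀ (Dv i)) (dl' := fun i => Δ (Dv i))
    (fun i => hΔ₀0 (Dv i)) (fun i => hle (Dv i)) ht hm hm' hρ₀s hρ₀0 hρ₁s hρ₁0
    (hnull n X m _ ρ₀ hl₀) (hnull n X m' _ ρ₁ hl₁) hcurv₀ hcurv₁ hD.closed
    (H167.GM.IsSemiKahler.isClosedForm hβ) hD.psd hβ.posSemidef hD.growth hK hE hdec hu he h0 h1
    hx0 hx1 (fun i => bd_pos' hBd ((off_eqL hTex).1 hxo (Dv i) (hDv i))) (hg e he).1 (hg e he).2 v ?_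
  exact (hD.ker e x he hxo a₀ ha₀ v).2 hv

end Vale.Agent.P281.H716.KL
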