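import Vale.Agent.P281.H716.KL.Iface
import Vale.Agent.P281.H723.KD.Loc
import Vale.Agent.P272.K.Asm.Weak

/-! P281, theorem KL: decomposable tensors with poles, as sections with values in `∑ E i Dv i`. -/

open scoped Manifold ContDiff Topology ComplexOrder
open Set Filter Vale.Agent.P281.J Vale.Agent.P272.K Vale.Agent.P272.K.AMP Vale.Agent.P299
open Vale.Agent.P299.H882 (J xi qf)
open Vale.Agent.P272.K.INT (IsClosedForm)

set_option linter.all false

noncomputable section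

namespace Vale.Agent.P281.H716.KL

open Vale.Agent.P281.H713 Vale.Agent.P281.H713.SA Vale.Agent.P281.H713.KD Vale.Agent.P281.H716
open Vale.Agent.P281.H167.GM (mixX addF phiD)
open Vale.Agent.P281.H723.KD (r_nonneg)

variable {n M : ℕ} {X : Type} [TopologicalSpace X] [ChartedSpace (Cm n) X]
  [IsManifold 𝓘(ℂ, Cm n) ω X]
  {Dv : Fin M → Set X} {r : Fin M → X → ℝ} {R : Fin M → D.FormM n X} {χ : D.FormM n X}

/-- the curvature form `∑ E i R i` of `∑ E i Dv i` -/
def LE (E : Fin M → ℕ) (R : Fin M → D.FormM n X) : D.FormM n X :=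
  fun e z => ∑ i, ((E i : ℝ) : ℂ) • R i e z

lemma smooth_prod (hrs : ∀ i, SmoothFn (n := n) (r i)) (a : Fin M → ℕ) :
    SmoothFn (n := n) (fun x => ∏ i, r i x ^ a i) := by
  intro e x hx
  exact contDiffAt_prod fun i _ => (hrs i e x hx).pow _

lemma prod_nonneg' (hBd : IsBd Dv r R) (a : Fin M → ℕ) (x : X) : 0 ≤ ∏ i, r i x ^ a i :=
  Finset.prod_nonneg fun i _ => pow_nonneg (r_nonneg hBd i x) _

lemma prod_le_one' (hBd : IsBd Dv r R) (a : Fin M → ℕ) (x : X) : ∏ i, r i x ^ a i ≤ 1 :=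
  Finset.prod_le_one (fun i _ => pow_nonneg (r_nonneg hBd i x) _)
    fun i _ => pow_le_one₀ (r_nonneg hBd i x) (hBd.le_one i x)

lemma isHolNorm_mul (hBd : IsBd Dv r R) (a : Fin M → ℕ) {h : X → ℝ}
    (hh : IsHolNorm (n := n) h) : IsHolNorm (n := n) fun x => h x * ∏ i, r i x ^ a i := by
  intro e x hx
  obtain ⟨N, A, H, hA, hH, hHp, hev⟩ := hh e x hx
  obtain ⟨g, ψ, hg, hψ, -, -, hev'⟩ := hBd.loc e x hx
  refine ⟨N, fun b z => A b z * ∏ i, g i z ^ a i,
    fun z => ((Real.exp (-∑ i, (a i : ℝ) * ψ i z) : ℝ) : ℂ) • H z, ?_, ?_, ?_, ?_⟩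
  · intro b
    exact (hA b).mul (Finset.analyticAt_fun_prod _ fun i _ => (hg i).pow _)
  · intro b c
    have h1 : ContDiffAt ℝ ∞ (fun z => Real.exp (-∑ i, (a i : ℝ) * ψ i z)) (e x) :=
      Real.contDiff_exp.contDiffAt.comp (e x)
        (ContDiffAt.sum fun i _ => contDiffAt_const.mul (hψ i)).neg
    have h2 : ContDiffAt ℝ ∞ (fun z => ((Real.exp (-∑ i, (a i : ℝ) * ψ i z) : ℝ) : ℂ)) (e x) :=
      Complex.ofRealCLM.contDiff.contDiffAt.comp (e x) h1
    exact h2.mul (hH b c)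
  · exact hHp.smul (by exact_mod_cast Real.exp_pos _)
  · filter_upwards [hev, hev'] with z h1 h2
    refine ⟨?_, ?_⟩
    · have h3 : (((Real.exp (-∑ i, (a i : ℝ) * ψ i z) : ℝ) : ℂ) • H z).conjTranspose =
          ((Real.exp (-∑ i, (a i : ℝ) * ψ i z) : ℝ) : ℂ) • H z := by
        rw [Matrix.conjTranspose_smul, h1.1.eq]
        congr 1
        exact Complex.conj_ofReal _
      exact h3
    · rw [h1.2]
      have h3 : ∏ i, r i (e.symm z) ^ a i =
          ‖∏ i, g i z ^ a i‖ ^ 2 * Real.exp (-∑ i, (a i : ℝ) * ψ i z) := by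
        have h4 : ∀ i, r i (e.symm z) ^ a i = ‖g i z ^ a i‖ ^ 2 * Real.exp (-((a i : ℝ) * ψ i z)) := by
          intro i
          rw [(h2 i).1, mul_pow, norm_pow, ← Real.exp_nat_mul]
          congr 1
          · ring
          · congr 1; ring
        rw [Finset.prod_congr rfl fun i _ => h4 i, Finset.prod_mul_distrib, ← Real.exp_sum,
          Finset.prod_pow, Finset.sum_neg_distrib, norm_prod]
      rw [h3]
      have h5 : (∑ b, ∑ c, A b z * (∏ i, g i z ^ a i) *
          (starRingEnd ℂ) (A c z * ∏ i, g i z ^ a i) *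
          (((Real.exp (-∑ i, (a i : ℝ) * ψ i z) : ℝ) : ℂ) • H z) b c) =
          (((‖∏ i, g i z ^ a i‖ ^ 2 * Real.exp (-∑ i, (a i : ℝ) * ψ i z) : ℝ) : ℂ)) *
            ∑ b, ∑ c, A b z * (starRingEnd ℂ) (A c z) * H z b c := by
        rw [Finset.mul_sum]
        refine Finset.sum_congr rfl fun b _ => ?_
        rw [Finset.mul_sum]
        refine Finset.sum_congr rfl fun c _ => ?_
        rw [map_mul, Matrix.smul_apply, smul_eq_mul]
        have h6 : (∏ i, g i z ^ a i) * (starRingEnd ℂ) (∏ i, g i z ^ a i) =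
            ((‖∏ i, g i z ^ a i‖ ^ 2 : ℝ) : ℂ) := by
          rw [Complex.mul_conj, Complex.normSq_eq_norm_sq]
        push_cast at h6 ⊢
        rw [← h6]
        ring
      rw [h5, Complex.re_ofReal_mul]
      ring

/-- there are points of `Dv i` near `x` off the other divisors -/
lemma exists_off (hBd : IsBd Dv r R) (hrs : ∀ i, SmoothFn (n := n) (r i)) {i : Fin M} {x : X}
    (hx : x ∈ Dv i) {W : Set X} (hW : W ∈ 𝓝 x) :
    ∃ y ∈ W, y ∈ Dv i ∧ ∀ l, l ≠ i → 0 < r l y := by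
  classical
  set e : Chart n X := chartAt (Cm n) x with hed
  have he : At e x := AMP.at_chartAt x
  obtain ⟨g, ψ, hg, hψ, hl, hlin, hev⟩ := hBd.loc e x he
  have hmem : ∀ᶠ y in 𝓝 x, ∀ l, (y ∈ Dv l ↔ g l (e y) = 0) := by
    refine Filter.eventually_all.2 fun l => ?_
    obtain ⟨V, hV, hxV, -, h2, -⟩ := hl l
    filter_upwards [hV.mem_nhds hxV] with y hy
    exact h2 y hy
  set I := {l // g l (e x) = 0} with hI
  have hi0 : g i (e x) = 0 := (hmem.self_of_nhds i).1 hx
  set i' : I := ⟨i, hi0⟩ with hi'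
  -- the submersion
  set Φ : Cm n → (I → ℂ) := fun z l => g l.1 z with hΦ
  have hΦd : HasStrictFDerivAt Φ (ContinuousLinearMap.pi fun l : I => fderiv ℂ (g l.1) (e x))
      (e x) := by
    refine hasStrictFDerivAt_pi.2 fun l => ?_
    exact ((hg l.1).contDiffAt (n := 1)).hasStrictFDerivAt one_ne_zero
  have hsurj : (ContinuousLinearMap.pi fun l : I => fderiv ℂ (g l.1) (e x)).range = ⊤ := by
    rw [LinearMap.range_eq_top]
    have h1 := JB.surjective_of_linearIndependent hlin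
    intro y
    obtain ⟨v, hv⟩ := h1 y
    exact ⟨v, by funext l; exact congrFun hv l⟩
  have hmap := hΦd.map_nhds_eq_of_surj hsurj
  have hΦ0 : Φ (e x) = 0 := by
    funext l
    exact l.2
  -- the neighbourhood
  have hW' : ∀ᶠ z in 𝓝 (e x), e.symm z ∈ W ∧ (∀ l, (e.symm z ∈ Dv l ↔ g l z = 0)) ∧
      (∀ l, g l (e x) ≠ 0 → g l z ≠ 0) ∧ ∀ l, r l (e.symm z) = ‖g l z‖ ^ 2 * Real.exp (-ψ l z) := by
    have h1 : Tendsto e.symm (𝓝 (e x)) (𝓝 x) := symm_tendsto he
    have h2 : ∀ᶠ z in 𝓝 (e x), ∀ l, g l (e x) ≠ 0 → g l z ≠ 0 := by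
      refine Filter.eventually_all.2 fun l => ?_
      by_cases h0 : g l (e x) = 0
      · exact Eventually.of_forall fun z h => absurd h0 h
      · filter_upwards [(hg l).continuousAt.eventually_ne h0] with z hz _ using hz
    filter_upwards [h1.eventually (eventually_mem_set.2 hW), h1.eventually hmem, he.nhds_target, h2,
      hev] with z a1 a2 a3 a4 a5
    refine ⟨a1, fun l => ?_, a4, fun l => (a5 l).1⟩
    have := a2 l
    rwa [e.right_inv a3] at this
  have h3 : ∀ᶠ w in 𝓝 (0 : I → ℂ), ∃ z, Φ z = w ∧ e.symm z ∈ W ∧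
      (∀ l, (e.symm z ∈ Dv l ↔ g l z = 0)) ∧ (∀ l, g l (e x) ≠ 0 → g l z ≠ 0) ∧
      ∀ l, r l (e.symm z) = ‖g l z‖ ^ 2 * Real.exp (-ψ l z) := by
    rw [← hΦ0, ← hmap]
    filter_upwards [Filter.image_mem_map hW'] with w hw
    obtain ⟨z, hz, rfl⟩ := hw
    exact ⟨z, rfl, hz⟩
  obtain ⟨ε, hε, hball⟩ := Metric.eventually_nhds_iff.1 h3
  set w : I → ℂ := fun l => if l = i' then 0 else ((ε / 2 : ℝ) : ℂ) with hw
  have hwd : dist w 0 < ε := by
    rw [dist_pi_lt_iff hε]
    intro l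
    simp only [hw, Pi.zero_apply]
    split_ifs with h
    · rw [dist_self]; exact hε
    · rw [dist_zero_right, Complex.norm_real, Real.norm_eq_abs, abs_of_pos (half_pos hε)]
      exact half_lt_self hε
  obtain ⟨z, hz1, hz2, hz3, hz4, hz5⟩ := hball hwd
  refine ⟨e.symm z, hz2, (hz3 i).2 ?_, fun l hl => ?_⟩
  · have h4 := congrFun hz1 i'
    simp only [hΦ, hw, if_true] at h4
    exact h4
  · have h5 : g l z ≠ 0 := by
      by_cases h0 : g l (e x) = 0
      · have h4 := congrFun hz1 ⟨l, h0⟩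
        have h6 : (⟨l, h0⟩ : I) ≠ i' := fun h => hl (congrArg Subtype.val h)
        simp only [hΦ, hw, if_neg h6] at h4
        rw [h4]
        exact_mod_cast (half_pos hε).ne'
      · exact hz4 l h0
    rw [hz5 l]
    have : (0 : ℝ) < ‖g l z‖ := norm_pos_iff.2 h5
    positivity

theorem dec_of (hχ : IsKahler χ) (hBd : IsBd Dv r R) (hrs : ∀ i, SmoothFn (n := n) (r i))
    {p μ : ℕ} {P : Fin M → ℕ} {N₀ N₁ : D.FormM n X → X → ℝ}
    (h : IsDecPair Dv r χ p μ P N₀ N₁) (E : Fin M → ℕ) :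
    IsDecPairL Dv r χ p μ (fun i => P i - E i) (LE E R)
      (fun g x => N₀ g x * ∏ i, r i x ^ (E i - P i))
      (fun g x => N₁ g x * ∏ i, r i x ^ (E i - P i)) where
  smooth g hg := by
    refine ⟨fun e x hx => ((h.smooth g hg).1 e x hx).mul (smooth_prod hrs _ e x hx),
      fun e x hx => ((h.smooth g hg).2 e x hx).mul (smooth_prod hrs _ e x hx)⟩
  nonneg g x hg := ⟨mul_nonneg (h.nonneg g x hg).1 (prod_nonneg' hBd _ x),
    mul_nonneg (h.nonneg g x hg).2 (prod_nonneg' hBd _ x)⟩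
  pos g x hg := by
    have key : ∀ a b c : ℝ, 0 ≤ a → 0 ≤ b → 0 ≤ c → (0 < a ↔ 0 < b) → (0 < a * c ↔ 0 < b * c) := by
      intro a b c ha hb hc hab
      constructor
      · intro h1
        have h2 : 0 < c := lt_of_le_of_ne hc fun h0 => by rw [← h0, mul_zero] at h1; exact h1.false
        have h3 : 0 < a := lt_of_le_of_ne ha fun h0 => by rw [← h0, zero_mul] at h1; exact h1.false
        exact mul_pos (hab.1 h3) h2
      · intro h1
        have h2 : 0 < c := lt_of_le_of_ne hc fun h0 => by rw [← h0, mul_zero] at h1; exact h1.false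
        have h3 : 0 < b := lt_of_le_of_ne hb fun h0 => by rw [← h0, zero_mul] at h1; exact h1.false
        exact mul_pos (hab.2 h3) h2
    exact ⟨key _ _ _ (h.nonneg g x hg).1 (h.nonneg χ x hχ).1 (prod_nonneg' hBd _ x) (h.pos g x hg).1,
      key _ _ _ (h.nonneg g x hg).2 (h.nonneg χ x hχ).2 (prod_nonneg' hBd _ x) (h.pos g x hg).2⟩
  hol := by
    have h1 := isHolNorm_mul hBd (fun i => E i - P i) h.hol
    have h2 : (fun x => N₀ χ x * ∏ i, r i x ^ (E i - P i) + N₁ χ x * ∏ i, r i x ^ (E i - P i)) =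
        fun x => (N₀ χ x + N₁ χ x) * ∏ i, r i x ^ (E i - P i) := by
      funext x; ring
    rw [h2]
    exact h1
  ne i hi x hx hcon := by
    have hi' : P i ≠ 0 := by
      intro h0
      exact hi (by simp only [h0]; omega)
    have hEP : E i - P i = 0 := by
      have : P i - E i ≠ 0 := hi
      omega
    refine h.ne i hi' x hx ?_
    have hcont : Continuous fun y => N₀ χ y + N₁ χ y :=
      (INT.SmoothFn.continuous (h.smooth χ hχ).1).add
        (INT.SmoothFn.continuous (h.smooth χ hχ).2)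
    filter_upwards [eventually_eventually_nhds.2 hcon] with y hy hyD
    by_contra hne
    have hpos : 0 < N₀ χ y + N₁ χ y := lt_of_le_of_ne
      (add_nonneg (h.nonneg χ y hχ).1 (h.nonneg χ y hχ).2) (Ne.symm hne)
    have hW : {y' | 0 < N₀ χ y' + N₁ χ y' ∧ (y' ∈ Dv i →
        N₀ χ y' * ∏ i, r i y' ^ (E i - P i) + N₁ χ y' * ∏ i, r i y' ^ (E i - P i) = 0)} ∈ 𝓝 y := by
      filter_upwards [hcont.continuousAt.eventually (lt_mem_nhds hpos), hy] with y' a1 a2
      exact ⟨a1, a2⟩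
    obtain ⟨y', hy'W, hy'D, hy'r⟩ := exists_off hBd hrs hyD hW
    have h1 := hy'W.2 hy'D
    have h2 : 0 < ∏ l, r l y' ^ (E l - P l) := by
      refine Finset.prod_pos fun l _ => ?_
      by_cases hl : l = i
      · rw [hl, hEP, pow_zero]; exact one_pos
      · exact pow_pos (hy'r l hl) _
    rw [← add_mul] at h1
    exact (mul_pos hy'W.1 h2).ne' h1
  good := by
    obtain ⟨𝒪, h𝒪, hgood⟩ := h.good
    refine ⟨𝒪, h𝒪, fun a ha => ?_⟩
    obtain ⟨C, hC⟩ := hgood a ha
    refine ⟨C, fun x hx => ?_⟩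
    obtain ⟨hr, e, b, c₀, c₁, he, hb, hc₀, hc₁, hN, hl⟩ := hC x hx
    obtain ⟨g, ψ, hg, hψ, -, -, hev⟩ := hBd.loc e x he
    refine ⟨hr, e, b, fun z => c₀ z * ∏ i, g i z ^ E i, fun z => c₁ z * ∏ i, g i z ^ E i,
      fun z => ∑ i, (E i : ℝ) * ψ i z, he, hb,
      hc₀.mul (Finset.analyticAt_fun_prod _ fun i _ => (hg i).pow _),
      hc₁.mul (Finset.analyticAt_fun_prod _ fun i _ => (hg i).pow _),
      ContDiffAt.sum fun i _ => contDiffAt_const.mul (hψ i), ?_, ?_, ?_⟩
    · have h2 : ∀ i, ContDiffAt ℝ 2 (ψ i) (e x) := fun i => (hψ i).of_le (by norm_cast)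
      have h3 : cHess (fun z => ∑ i, (E i : ℝ) * ψ i z) (e x) =
          ∑ i, ((E i : ℝ) : ℂ) • cHess (ψ i) (e x) := by
        rw [Vale.Agent.P272.K.cHess_sum Finset.univ (fun i _ => contDiffAt_const.mul (h2 i))]
        refine Finset.sum_congr rfl fun i _ => ?_
        rw [C2.cHess_const_mul _ (h2 i)]
      rw [h3]
      unfold LE
      refine Finset.sum_congr rfl fun i _ => ?_
      rw [(hev.self_of_nhds i).2]
    · intro G hG
      filter_upwards [hN G hG, hev] with z h1 h2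
      have h3 : ∏ i, r i (e.symm z) ^ E i =
          ‖∏ i, g i z ^ E i‖ ^ 2 * Real.exp (-∑ i, (E i : ℝ) * ψ i z) := by
        have h4 : ∀ i, r i (e.symm z) ^ E i = ‖g i z ^ E i‖ ^ 2 * Real.exp (-((E i : ℝ) * ψ i z)) := by
          intro i
          rw [(h2 i).1, mul_pow, norm_pow, ← Real.exp_nat_mul]
          congr 1
          · ring
          · congr 1; ring
        rw [Finset.prod_congr rfl fun i _ => h4 i, Finset.prod_mul_distrib, ← Real.exp_sum,
          Finset.prod_pow, Finset.sum_neg_distrib, norm_prod]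
      have h5 : (∏ i, r i (e.symm z) ^ P i) * ∏ i, r i (e.symm z) ^ (E i - P i) =
          (∏ i, r i (e.symm z) ^ E i) * ∏ i, r i (e.symm z) ^ (P i - E i) := by
        rw [← Finset.prod_mul_distrib, ← Finset.prod_mul_distrib]
        refine Finset.prod_congr rfl fun i _ => ?_
        rw [← pow_add, ← pow_add]
        congr 1
        omega
      have h6 : ∀ c : ℂ, ‖c‖ ^ 2 * (∏ i, r i (e.symm z) ^ P i) * gramD (b z) (G e z) ^ μ *
          ∏ i, r i (e.symm z) ^ (E i - P i) =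
          ‖c * ∏ i, g i z ^ E i‖ ^ 2 * Real.exp (-∑ i, (E i : ℝ) * ψ i z) *
            (∏ i, r i (e.symm z) ^ (P i - E i)) * gramD (b z) (G e z) ^ μ := by
        intro c
        rw [norm_mul, mul_pow]
        calc _ = ‖c‖ ^ 2 * gramD (b z) (G e z) ^ μ * ((∏ i, r i (e.symm z) ^ P i) *
              ∏ i, r i (e.symm z) ^ (E i - P i)) := by ring
          _ = _ := by rw [h5, h3]; ring
      exact ⟨by rw [h1.1, h6], by rw [h1.2, h6]⟩
    · intro ha'
      have h1 : a ≤ N₀ χ x + N₁ χ x := by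
        refine ha'.trans ?_
        rw [← add_mul]
        calc (N₀ χ x + N₁ χ x) * ∏ i, r i x ^ (E i - P i) ≤ (N₀ χ x + N₁ χ x) * 1 :=
            mul_le_mul_of_nonneg_left (prod_le_one' hBd _ x)
              (add_nonneg (h.nonneg χ x hχ).1 (h.nonneg χ x hχ).2)
          _ = _ := mul_one _
      intro i hi
      exact hl h1 i fun h0 => hi (by simp only [h0]; omega)

end Vale.Agent.P281.H716.KL
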