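import Vale.Agent.P281.H167.KG.Iface
import Vale.Agent.P281.H716.KL.IfaceG

namespace Vale.Agent.P281.H716.KL

open scoped Manifold ContDiff Topology ComplexOrder
open Set Filter Vale.Agent.P281 Vale.Agent.P281.J Vale.Agent.P272.K Vale.Agent.P281.H167 Vale.Agent.P281.H713

/-! ### definitions of the final statement -/

/-- the products `S b * S' c` -/
def prodF {X : Type} {N N' : ℕ} (S : Fin N → X → ℂ) (S' : Fin N' → X → ℂ) (a : Fin (N * N'))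
    (z : X) : ℂ :=
  S (finProdFinEquiv.symm a).1 z * S' (finProdFinEquiv.symm a).2 z

/-- `S b` are sections of `m K_X + ∑ k(D) D` and `S' b` of `m' K_X + ∑ k'(D) D`.  Near every point,
`S b = (∏ g_i ^ a_i) H_b` and `S' b = (∏ g_i ^ a'_i) H'_b` in frames of these line bundles
(`e D` are local equations of the divisors `D`), where the `H_b` (and the `H'_b`) have no common zero
and the hypersurfaces `g_i = 0` are smooth: the fixed divisors are locally `∑ a_i {g_i = 0}` and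
`∑ a'_i {g_i = 0}`, the moving parts are generated by the `H_b` and `H'_b`.  Moreover each
hypersurface `g_i = 0` is contracted by `([H_b H'_c], β)`, or the map `[H_b H'_c]` has rank less than
`ν` on it. -/
def IsGoodFix2 {n : ℕ} (m m' ν : ℕ) {X : Type} [TopologicalSpace X] [ChartedSpace (Cm n) X]
    (k k' : Set X → ℕ) {N N' : ℕ} (S : Fin N → X → ℂ) (S' : Fin N' → X → ℂ)
    (β : Chart n X → Cm n → Matrix (Fin n) (Fin n) ℂ) : Prop :=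
  ∀ x : X, ∃ (T : Finset (Set X)) (e : Set X → X → ℂ) (r : ℕ) (g : Fin r → X → ℂ)
    (a a' : Fin r → ℕ) (H : Fin N → X → ℂ) (H' : Fin N' → X → ℂ),
    (∀ D, k D ≠ 0 ∨ k' D ≠ 0 → D ∈ T) ∧ (∀ D ∈ T, J.IsLocalEq (Cm n) D (e D) x) ∧
    (∀ i, J.HolAt (Cm n) (g i) x ∧ J.dif (Cm n) (g i) x ≠ 0) ∧ (∀ b, J.HolAt (Cm n) (H b) x) ∧
    (∀ b, J.HolAt (Cm n) (H' b) x) ∧ (∃ b, H b x ≠ 0) ∧ (∃ b, H' b x ≠ 0) ∧
    ∀ᶠ z in 𝓝 x, (∏ D ∈ T, e D z ^ k D ≠ 0 → ∀ b,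
      S b z * ∏ D ∈ T, e D z ^ k D = (∏ i, g i z ^ a i) * H b z *
        ContinuousLinearMap.det (mfderiv 𝓘(ℂ, Cm n) 𝓘(ℂ, Cm n) (chartAt (Cm n) x) z :
          Cm n →L[ℂ] Cm n) ^ m) ∧
      (∏ D ∈ T, e D z ^ k' D ≠ 0 → ∀ b,
      S' b z * ∏ D ∈ T, e D z ^ k' D = (∏ i, g i z ^ a' i) * H' b z *
        ContinuousLinearMap.det (mfderiv 𝓘(ℂ, Cm n) 𝓘(ℂ, Cm n) (chartAt (Cm n) x) z :
          Cm n →L[ℂ] Cm n) ^ m') ∧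
      ∀ i, g i z = 0 → DegAt n ν (prodF H H') (g i) β z

/-- **Theorem KGL**. -/
def MainPartGL : Prop := ∀ (n p d : ℕ) (_ : n = p + d) (X Z Y F : Type)
  [TopologicalSpace X] [T2Space X] [CompactSpace X] [ConnectedSpace X]
  [ChartedSpace (Cm n) X] [IsManifold 𝓘(ℂ, Cm n) ω X]
  [TopologicalSpace Z] [ChartedSpace (Cm n) Z] [IsManifold 𝓘(ℂ, Cm n) ω Z]
  [TopologicalSpace Y] [T2Space Y] [ConnectedSpace Y]
  [ChartedSpace (Cm p) Y] [IsManifold 𝓘(ℂ, Cm p) ω Y]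
  [TopologicalSpace F] [T2Space F] [CompactSpace F] [ConnectedSpace F]
  [ChartedSpace (Cm d) F] [IsManifold 𝓘(ℂ, Cm d) ω F]
  (χ : Chart n X → Cm n → Matrix (Fin n) (Fin n) ℂ) (_ : IsKahler χ)
  (Δ Δ₀ : Set X → ℝ) (_ : J.IsSNC (Cm n) Δ) (_ : ∀ D, ∃ q : ℚ, Δ₀ D = q ∧ 0 ≤ q ∧ q < 1)
  (_ : ∀ D, Δ₀ D ≤ Δ D) (t : ℝ) (_ : 0 < t) (_ : t ≤ 1)
  (m N : ℕ) (_ : 0 < m) (k : Set X → ℕ) (_ : ∀ D, (k D : ℝ) = m * Δ₀ D) (S : Fin N → X → ℂ)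
  (_ : ∀ b, J.IsSection (Cm n) (fun (D : Set X) z g => J.IsLocalEq (Cm n) D g z) m k (S b))
  (m' N' : ℕ) (_ : 0 < m') (k' : Set X → ℕ)
  (_ : ∀ D, (k' D : ℝ) = m' * (Δ₀ D + t * (Δ D - Δ₀ D))) (S' : Fin N' → X → ℂ)
  (_ : ∀ b, J.IsSection (Cm n) (fun (D : Set X) z g => J.IsLocalEq (Cm n) D g z) m' k' (S' b))
  (j : Z → X) (_ : J.IsBigOpen (Cm n) j) (f : Z → Y) (_ : ContMDiff 𝓘(ℂ, Cm n) 𝓘(ℂ, Cm p) ω f)
  (𝒢 : Set (Set Y)) (_ : J.IsDivisorial (Cm n) (Cm p) f 𝒢)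
  (Δ' : Set Z → ℝ) (_ : J.IsSNC (Cm n) Δ') (_ : J.IsRestriction j Δ Δ')
  (_ : ∀ G, J.orbBase' (Cm n) (Cm p) f Δ' G ≠ 0 → G ∈ 𝒢)
  (i : F → Z) (_ : IsSmoothFibre (Cm n) (Cm p) (Cm d) f i)
  (_ : ∀ D, Δ D ≠ 0 → ∃ t, j (i t) ∉ D)
  (ν : ℕ) (_ : HasRankP n ν (k + k') id (prodF S S'))
  (β : Chart n X → Cm n → Matrix (Fin n) (Fin n) ℂ) (_ : IsSemiKahler β)
  (_ : IsGoodFix2 m m' ν k k' S S' β)
  (νF : ℕ) (_ : HasRankP d νF (k + k') (fun t => j (i t)) (prodF S S'))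
  (βF : Chart d F → Cm d → Matrix (Fin d) (Fin d) ℂ) (_ : IsSemiKahler βF)
  (_ : IsGoodFixP n d (m + m') νF (k + k') (fun t => j (i t)) (prodF S S') βF),
  J.kod (Cm d) (fun (D : Set X) t g => ∃ e, J.IsLocalEq (Cm n) D e (j (i t)) ∧
      ∀ᶠ t' in 𝓝 t, g t' = e (j (i t'))) Δ +
    J.kod (Cm p) (fun (G : Set Y) y g => J.IsLocalEq (Cm p) G g y) (J.orbBase' (Cm n) (Cm p) f Δ') ≤
    J.kod (Cm n) (fun (D : Set X) x g => J.IsLocalEq (Cm n) D g x) Δ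

end Vale.Agent.P281.H716.KL
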