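import Vale.Agent.P281.H716.KL.Defs

/-! P281, theorem KGL: sections of `m (K_F + Δ)`, from the sections of `m (K_F + Δ₀ + s (Δ - Δ₀))`. -/

open scoped Manifold ContDiff Topology ComplexOrder
open Set Filter Vale.Agent.P281 Vale.Agent.P272.K Vale.Agent.P299.D
open Vale.Agent.P281.H716.IsSys Vale.Agent.P281.MF

set_option linter.all false

noncomputable section

namespace Vale.Agent.P281.H716.KL

variable {d : ℕ} {F : Type} [TopologicalSpace F] [ChartedSpace (Cm d) F]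
  [IsManifold 𝓘(ℂ, Cm d) ω F] {κ : Type} {eqn : κ → F → (F → ℂ) → Prop} {T : Finset κ}

theorem flatSec_trans (h : IsSys d eqn T) {Δ Δ₀ ΔP : κ → ℝ} (hT : ∀ D, Δ D ≠ 0 → D ∈ T)
    (hT₀ : ∀ D, Δ₀ D ≠ 0 → D ∈ T) {A B : ℕ} (hA : 0 < A) (hAB : A ≤ B)
    (hΔP : ∀ D, (B : ℝ) * (ΔP D - Δ₀ D) = A * (Δ D - Δ₀ D))
    {m : ℕ} {k : κ → ℕ} (hk : ∀ D, (k D : ℝ) = m * Δ₀ D) (hm : 0 < m) {ι' : Type}
    {S : ι' → F → ℂ}
    (hS : ∀ b, J.IsSection (Cm d) eqn m k (S b)) {ι : Type} {P : ι → F → ℂ} {R : Set F}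
    (hR : ∀ x ∈ R, x ∈ off eqn T) (hne : ∀ x ∈ R, ∃ b, S b x ≠ 0)
    (hP : FlatSec d eqn ΔP P R) : FlatSec d eqn Δ P R := by
  intro x hx m₂ k₂ hk₂ a₀ a₁ ha₀ ha₁ hx0 i₀ hi₀ v hv
  obtain ⟨b, hb⟩ := hne x hx
  have hxo := hR x hx
  have hk₂T : ∀ D, k₂ D ≠ 0 → D ∈ T := by
    intro D hD
    refine hT D fun h0 => hD ?_
    have := hk₂ D
    rw [h0, mul_zero] at this
    exact_mod_cast this
  have hkT : ∀ D, k D ≠ 0 → D ∈ T := by
    intro D hD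
    refine hT₀ D fun h0 => hD ?_
    have := hk D
    rw [h0, mul_zero] at this
    exact_mod_cast this
  obtain ⟨N, hN⟩ : ∃ N, A * m = N + 1 := ⟨A * m - 1, by
    have : 0 < A * m := Nat.mul_pos hA hm
    omega⟩
  set E : ℕ := m₂ * (B - A) with hE
  have hEk : ∀ D, (E • k) D ≠ 0 → D ∈ T := by
    intro D hD
    refine hkT D fun h0 => hD ?_
    rw [Pi.smul_apply, h0, smul_zero]
  have hNk : ∀ D, ((N + 1) • k₂) D ≠ 0 → D ∈ T := by
    intro D hD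
    refine hk₂T D fun h0 => hD ?_
    rw [Pi.smul_apply, h0, smul_zero]
  have hSE := h.pow hkT (hS b) E
  have h0' := h.mul hNk hEk (h.pow hk₂T ha₀ (N + 1)) hSE
  have h1' := h.mul hNk hEk (h.pow_mul hk₂T ha₀ ha₁ N (k' := (N + 1) • k₂) hNk fun D => by
    rw [Pi.smul_apply, smul_eq_mul]) hSE
  have hcls : ∀ D, ((((N + 1) • k₂ + E • k) D : ℕ) : ℝ) = (((N + 1) * m₂ + E * m : ℕ) : ℝ) * ΔP D := by
    intro D
    have e1 : (N : ℝ) + 1 = (A : ℝ) * m := by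
      have := congrArg (Nat.cast (R := ℝ)) hN
      push_cast at this
      exact this.symm
    have e2 : (E : ℝ) = m₂ * ((B : ℝ) - A) := by
      rw [hE, Nat.cast_mul, Nat.cast_sub hAB]
    have e3 := hΔP D
    rw [Pi.add_apply, Pi.smul_apply, Pi.smul_apply, smul_eq_mul, smul_eq_mul]
    generalize E = E' at e2
    push_cast
    rw [e1, e2, hk₂ D, hk D]
    linear_combination (-(m₂ : ℝ) * m) * e3
  have hx0' : a₀ x ^ (N + 1) * S b x ^ E ≠ 0 := mul_ne_zero (pow_ne_zero _ hx0) (pow_ne_zero _ hb)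
  have key := hP x hx _ _ hcls _ _ h0' h1' hx0' i₀ hi₀ v hv
  have hev : (fun w => a₀ w ^ N * a₁ w * S b w ^ E / (a₀ w ^ (N + 1) * S b w ^ E)) =ᶠ[𝓝 x]
      fun w => a₁ w / a₀ w := by
    filter_upwards [h.ev_ne hk₂T ha₀ hxo hx0, h.ev_ne hkT (hS b) hxo hb] with w h1 h2
    rw [mul_div_mul_right _ _ (pow_ne_zero _ h2), pow_succ, mul_div_mul_left _ _ (pow_ne_zero _ h1)]
  rw [dV_congr hev] at key
  exact key

end Vale.Agent.P281.H716.KL
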