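import Vale.Agent.P281.H713.KD.Iface
import Vale.Agent.P281.H716.MainC

/-! P281, theorem KL (log canonical pairs with boundary `Δ₀ + Δ₁`, `K_X + Δ₀` and `K_X + Δ₀ + t Δ₁`
semiample, `Δ₀` with coefficients `< 1`): the blocks of the proof, as propositions.  The case
`Δ₁ = 0` is theorem KD, the case `Δ₀ = 0` is theorem SAL. -/

open scoped Manifold ContDiff Topology ComplexOrder
open Set Filter Vale.Agent.P281.J Vale.Agent.P272.K Vale.Agent.P272.K.AMP Vale.Agent.P299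
open Vale.Agent.P299.H882 (J xi qf)
open Vale.Agent.P272.K.INT (IsClosedForm)

noncomputable section

namespace Vale.Agent.P281.H716.KL

open Vale.Agent.P281.H713 Vale.Agent.P281.H713.SA Vale.Agent.P281.H713.KD Vale.Agent.P281.H716
open Vale.Agent.P281.H167.GM (mixX addF phiD)

section defs

variable {n M : ℕ} {X : Type} [TopologicalSpace X] [ChartedSpace (Cm n) X]

/-- For all Kähler metrics `g`, `N₀ g` and `N₁ g` are the squares of the norms, for `g`, the metrics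
of `O(Dv i)` and a metric of curvature `L` of a line bundle, of two proportional meromorphic tensors
`c (b_1 ∧ ⋯ ∧ b_p)^μ` with values in this line bundle, with poles of order `≤ K i` along `Dv i`, and
exactly `K i` for one of them if `K i ≠ 0`.  On `Dv i`, `K i ≠ 0`, `d g i` belongs to the span of the
`b_j`, where one of the tensors is nonzero. -/
structure IsDecPairL (Dv : Fin M → Set X) (r : Fin M → X → ℝ) (χ : D.FormM n X) (p μ : ℕ)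
    (K : Fin M → ℕ) (L : D.FormM n X) (N₀ N₁ : D.FormM n X → X → ℝ) : Prop where
  smooth : ∀ g, IsKahler g → SmoothFn (n := n) (N₀ g) ∧ SmoothFn (n := n) (N₁ g)
  nonneg : ∀ g x, IsKahler g → 0 ≤ N₀ g x ∧ 0 ≤ N₁ g x
  pos : ∀ g x, IsKahler g → (0 < N₀ g x ↔ 0 < N₀ χ x) ∧ (0 < N₁ g x ↔ 0 < N₁ χ x)
  hol : IsHolNorm (n := n) fun x => N₀ χ x + N₁ χ x
  ne : ∀ i, K i ≠ 0 → ∀ x ∈ Dv i, ¬ ∀ᶠ y in 𝓝 x, y ∈ Dv i → N₀ χ y + N₁ χ y = 0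
  good : ∃ 𝒪 : Set X, Dense 𝒪 ∧ ∀ a : ℝ, 0 < a → ∃ C : ℝ, ∀ x ∈ 𝒪, (∀ i, 0 < r i x) ∧
    ∃ (e : Chart n X) (b : Cm n → Matrix (Fin p) (Fin n) ℂ) (c₀ c₁ : Cm n → ℂ) (Ψ : Cm n → ℝ),
      At e x ∧ (∀ j l, AnalyticAt ℂ (fun z => b z j l) (e x)) ∧
      AnalyticAt ℂ c₀ (e x) ∧ AnalyticAt ℂ c₁ (e x) ∧
      ContDiffAt ℝ ∞ Ψ (e x) ∧ cHess Ψ (e x) = L e (e x) ∧
      (∀ g, IsKahler g → ∀ᶠ z in 𝓝 (e x),
        N₀ g (e.symm z) = ‖c₀ z‖ ^ 2 * Real.exp (-Ψ z) * (∏ i, r i (e.symm z) ^ K i) *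
          gramD (b z) (g e z) ^ μ ∧
        N₁ g (e.symm z) = ‖c₁ z‖ ^ 2 * Real.exp (-Ψ z) * (∏ i, r i (e.symm z) ^ K i) *
          gramD (b z) (g e z) ^ μ) ∧
      (a ≤ N₀ χ x + N₁ χ x → ∀ i, K i ≠ 0 → ∃ l : Fin p → ℂ,
        qf (χ e (e x)) (fun k => xi (fun y => Real.log (r i y)) e (e x) k -
          ∑ j, l j * b (e x) j k) ≤ C)

end defs

/-- **Block BL** (Bochner, with values in a line bundle of curvature `L`).  The case `L = 0` is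
`BochPartK`. -/
def BochPartL : Prop := ∀ (n M : ℕ) (X : Type) [TopologicalSpace X] [T2Space X] [CompactSpace X]
  [ConnectedSpace X] [ChartedSpace (Cm n) X] [IsManifold 𝓘(ℂ, Cm n) ω X]
  (χ : D.FormM n X) (_ : IsKahler χ) (φ : Chart n X → Cm n → ℝ) (_ : IsCanonicalMetric φ)
  (m : ℕ) (_ : 0 < m) (ρ : X → ℝ) (_ : SmoothFn (n := n) ρ) (_ : ∀ x, 0 ≤ ρ x)
  (Dv : Fin M → Set X) (r : Fin M → X → ℝ) (R : Fin M → D.FormM n X)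
  (_ : IsBd Dv r R) (dl : Fin M → ℝ) (_ : ∀ i, 0 ≤ dl i) (C : ℝ) (_ : 0 ≤ C)
  (_ : CurvKGe φ m ρ dl R C χ) (p μ : ℕ) (K : Fin M → ℕ) (_ : ∀ i, (K i : ℝ) ≤ μ * dl i)
  (L : D.FormM n X) (_ : IsClosedForm L)
  (N₀ N₁ : D.FormM n X → X → ℝ) (_ : IsDecPairL Dv r χ p μ K L N₀ N₁),
  ∃ C₂ : ℝ, 0 ≤ C₂ ∧ ∀ a : ℝ, 0 < a →
  ∃ C' : ℝ, 0 ≤ C' ∧ ∀ (β : X → ℝ), Continuous β → (∀ x, 0 ≤ β x) →
    (∀ x, N₀ χ x + N₁ χ x < a → 1 ≤ β x) → ∀ δ ε : ℝ, 0 < δ → 0 < ε → ε ≤ 1 →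
    ∀ (g : D.FormM n X) (c : ℝ), IsKahler g →
      (∀ e x, At e x → Real.log (g e (e x)).det.re = phiK φ m ρ δ dl r ε e (e x) + c) →
      ∀ N : D.FormM n X → X → ℝ, N = N₀ ∨ N = N₁ →
      BochF g (fun x => μ * (trX g (curvK φ m ρ δ dl R) x + C * (δ / (ρ x + δ)) * trX g χ x) +
        trX g L x + C' * ∑ i, ε / (r i x + ε) * trX g χ x +
        β x * ∑ i, if K i = 0 then 0 else K i * (trX g (dF (r i) (R i) ε) x + C₂ * trX g χ x))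
        (fun x => N g x * ∏ i, (r i x + ε)⁻¹ ^ K i)

/-- **Block KL-CORE**.  `L - i∂∂̄ w = c (Λ₁ - Λ₀)`, where `Λ₀ ≥ 0` is the curvature form of
`K_X + ∑ dl i Dv i` and `Λ₁ ≥ 0`. -/
def CorePartL : Prop := ∀ (n M : ℕ) (X : Type) [TopologicalSpace X] [T2Space X] [CompactSpace X]
  [ConnectedSpace X] [ChartedSpace (Cm n) X] [IsManifold 𝓘(ℂ, Cm n) ω X]
  (χ : D.FormM n X) (_ : IsKahler χ) (φ : Chart n X → Cm n → ℝ) (_ : IsCanonicalMetric φ)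
  (Dv : Fin M → Set X) (r : Fin M → X → ℝ) (R : Fin M → D.FormM n X)
  (_ : IsBd Dv r R) (dl : Fin M → ℝ) (_ : ∀ i, 0 ≤ dl i ∧ dl i < 1)
  (_ : ∀ e x, At e x → (clsK φ dl R e (e x)).PosSemidef)
  (Λ₁ : D.FormM n X) (_ : IsClosedForm Λ₁) (_ : ∀ e x, At e x → (Λ₁ e (e x)).PosSemidef)
  (L : D.FormM n X) (_ : IsClosedForm L) (w : X → ℝ) (_ : SmoothFn (n := n) w) (c : ℝ) (_ : 0 ≤ c)
  (_ : ∀ e x, At e x → L e (e x) = hess w e (e x) +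
    (c : ℂ) • (Λ₁ e (e x) - clsK φ dl R e (e x)))
  (θ β : D.FormM n X) (_ : IsClosedForm θ) (_ : IsClosedForm β)
  (_ : ∀ e x, At e x → (θ e (e x)).PosSemidef) (_ : ∀ e x, At e x → (β e (e x)).PosSemidef)
  (ν : ℕ) (C₁ : ℝ) (_ : ∃ᶠ s : ℝ in atTop, mixX (addF β s θ) (clsK φ dl R) ≤ C₁ * s ^ ν / s ∧
    mixX (addF β s θ) Λ₁ ≤ C₁ * s ^ ν / s)
  (p μ : ℕ) (K : Fin M → ℕ) (_ : ∀ i, (K i : ℝ) ≤ μ * dl i)
  (N₀ N₁ : D.FormM n X → X → ℝ) (_ : IsDecPairL Dv r χ p μ K L N₀ N₁)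
  (u : X → ℝ) (_ : ∀ g x, IsKahler g → 0 < N₀ g x → 0 < N₁ g x →
    u x = Real.log (N₁ g x) - Real.log (N₀ g x))
  (e : Chart n X) (x : X) (_ : At e x) (_ : 0 < N₀ χ x) (_ : 0 < N₁ χ x)
  (_ : ∀ i, 0 < r i x) (_ : (β e (e x)).PosDef) (_ : (θ e (e x)).rank = ν) (v : Cm n)
  (_ : ∀ j, ∑ i, v i * θ e (e x) i j = 0),
  ∑ i, xi u e (e x) i * v i = 0

/-- **Theorem KL**. -/
def MainPartKL : Prop := ∀ (n p d : ℕ) (_ : n = p + d) (X Z Y F : Type)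
  [TopologicalSpace X] [T2Space X] [CompactSpace X] [ConnectedSpace X]
  [ChartedSpace (Cm n) X] [IsManifold 𝓘(ℂ, Cm n) ω X]
  [TopologicalSpace Z] [ChartedSpace (Cm n) Z] [IsManifold 𝓘(ℂ, Cm n) ω Z]
  [TopologicalSpace Y] [T2Space Y] [ConnectedSpace Y]
  [ChartedSpace (Cm p) Y] [IsManifold 𝓘(ℂ, Cm p) ω Y]
  [TopologicalSpace F] [T2Space F] [CompactSpace F] [ConnectedSpace F]
  [ChartedSpace (Cm d) F] [IsManifold 𝓘(ℂ, Cm d) ω F]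
  (χ : Chart n X → Cm n → Matrix (Fin n) (Fin n) ℂ) (_ : IsKahler χ)
  (Δ Δ₀ : Set X → ℝ) (_ : IsSNC (Cm n) Δ) (_ : ∀ D, ∃ q : ℚ, Δ₀ D = q ∧ 0 ≤ q ∧ q < 1)
  (_ : ∀ D, Δ₀ D ≤ Δ D) (_ : IsSemiamplePair (Cm n) Δ₀)
  (_ : ∃ t : ℝ, 0 < t ∧ t ≤ 1 ∧ IsSemiamplePair (Cm n) fun D => Δ₀ D + t * (Δ D - Δ₀ D))
  (j : Z → X) (_ : IsBigOpen (Cm n) j) (f : Z → Y) (_ : ContMDiff 𝓘(ℂ, Cm n) 𝓘(ℂ, Cm p) ω f)
  (𝒢 : Set (Set Y)) (_ : IsDivisorial (Cm n) (Cm p) f 𝒢)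
  (Δ' : Set Z → ℝ) (_ : IsSNC (Cm n) Δ') (_ : IsRestriction j Δ Δ')
  (_ : ∀ G, orbBase' (Cm n) (Cm p) f Δ' G ≠ 0 → G ∈ 𝒢)
  (i : F → Z) (_ : IsSmoothFibre (Cm n) (Cm p) (Cm d) f i)
  (_ : ∀ D, Δ D ≠ 0 → ∃ t, j (i t) ∉ D),
  kod (Cm d) (fun (D : Set X) t g => ∃ e, IsLocalEq (Cm n) D e (j (i t)) ∧
      ∀ᶠ t' in 𝓝 t, g t' = e (j (i t'))) Δ +
    kod (Cm p) (fun (G : Set Y) y g => IsLocalEq (Cm p) G g y) (orbBase' (Cm n) (Cm p) f Δ') ≤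
    kod (Cm n) (fun (D : Set X) x g => IsLocalEq (Cm n) D g x) Δ

end Vale.Agent.P281.H716.KL
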